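import Vale.Agent.P297.H600.C8LinkU

/-!
The intersection of four quadrics for the group `ℤ/4 × ℤ/2`: if its singularities are isolated and
the group acts freely, then the parameters satisfy the conditions `Good`.
-/

open MvPolynomial

namespace Vale.Agent.P297.C8U

/-- The four functions have isolated singularities of corank one. -/
def IsoPol (f : Fin 4 → (Fin 7 → ℂ) → ℂ) : Prop :=
  ∃ Z : Finset ((Fin 7 → ℂ) × (Fin 4 → ℂ)), ∀ (z : Fin 7 → ℂ) (l : Fin 4 → ℂ),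
    (∀ i, f i z = 0) → z ≠ 0 → l ≠ 0 →
    (∀ δ : Fin 7 → ℂ, ∑ i, l i * (f i (z + δ) - f i z - f i δ) = 0) →
    ∃ w ∈ Z, ∃ a b : ℂ, z = a • w.1 ∧ l = b • w.2

/-- A singular point. -/
def SingPt (f : Fin 4 → (Fin 7 → ℂ) → ℂ) (z : Fin 7 → ℂ) (l : Fin 4 → ℂ) : Prop :=
  (∀ i, f i z = 0) ∧ z ≠ 0 ∧ l ≠ 0 ∧
    ∀ δ : Fin 7 → ℂ, ∑ i, l i * (f i (z + δ) - f i z - f i δ) = 0

theorem IsoPol.finz {f : Fin 4 → (Fin 7 → ℂ) → ℂ} (h : IsoPol f) (i j : Fin 7) :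
    {c : ℂ | ∃ z l, SingPt f z l ∧ z j ≠ 0 ∧ z i = c * z j}.Finite := by
  obtain ⟨Z, hZ⟩ := h
  refine (Z.finite_toSet.image fun w => w.1 i / w.1 j).subset ?_
  rintro c ⟨z, l, ⟨h1, h2, h3, h4⟩, h5, h6⟩
  obtain ⟨w, hw, a, b, hz, -⟩ := hZ z l h1 h2 h3 h4
  refine ⟨w, hw, ?_⟩
  rw [hz] at h5 h6
  simp only [Pi.smul_apply, smul_eq_mul] at h5 h6
  obtain ⟨ha, hj⟩ := mul_ne_zero_iff.1 h5
  change w.1 i / w.1 j = c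
  rw [div_eq_iff hj]
  apply mul_left_cancel₀ ha
  rw [h6]
  ring

theorem IsoPol.finl {f : Fin 4 → (Fin 7 → ℂ) → ℂ} (h : IsoPol f) (i j : Fin 4) :
    {c : ℂ | ∃ z l, SingPt f z l ∧ l j ≠ 0 ∧ l i = c * l j}.Finite := by
  obtain ⟨Z, hZ⟩ := h
  refine (Z.finite_toSet.image fun w => w.2 i / w.2 j).subset ?_
  rintro c ⟨z, l, ⟨h1, h2, h3, h4⟩, h5, h6⟩
  obtain ⟨w, hw, a, b, -, hl⟩ := hZ z l h1 h2 h3 h4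
  refine ⟨w, hw, ?_⟩
  rw [hl] at h5 h6
  simp only [Pi.smul_apply, smul_eq_mul] at h5 h6
  obtain ⟨ha, hj⟩ := mul_ne_zero_iff.1 h5
  change w.2 i / w.2 j = c
  rw [div_eq_iff hj]
  apply mul_left_cancel₀ ha
  rw [h6]
  ring

theorem not_all {S : Set ℂ} (hS : S.Finite) {P : Polynomial ℂ} (hP : P ≠ 0)
    (h : ∀ c : ℂ, P.eval c ≠ 0 → c ∈ S) : False := by
  have h1 : (Set.univ : Set ℂ) ⊆ S ∪ {c | P.IsRoot c} := by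
    intro c _
    by_cases h2 : P.eval c = 0
    · exact Or.inr h2
    · exact Or.inl (h c h2)
  exact Set.infinite_univ ((hS.union (Polynomial.finite_setOfPred_isRoot hP)).subset h1)

/-- The values of the four quadrics. -/
def vU (p : Fin 9 → ℂ) (i : Fin 4) (z : Fin 7 → ℂ) : ℂ :=
  ![z 1 * z 2 - z 0 ^ 2 + p 8 * z 3 ^ 2,
    (p 0 * (z 0 * z 3) + p 1 * (z 1 ^ 2 - z 2 ^ 2)) + (p 5 * z 0 ^ 2 + p 6 * z 3 ^ 2 +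
      p 7 * (z 1 ^ 2 + z 2 ^ 2)) - z 4 ^ 2,
    (p 0 * (z 0 * z 3) + p 1 * (z 1 ^ 2 - z 2 ^ 2)) - (p 5 * z 0 ^ 2 + p 6 * z 3 ^ 2 +
      p 7 * (z 1 ^ 2 + z 2 ^ 2)) - z 5 ^ 2,
    (p 2 * (z 0 * z 3) + p 3 * (z 1 ^ 2 - z 2 ^ 2)) + 2 * (p 4 * (z 4 * z 5)) - z 6 ^ 2] i

/-- There is no zero with the given coordinates equal to zero. -/
def NoZero (f : Fin 4 → (Fin 7 → ℂ) → ℂ) (A : Finset (Fin 7)) : Prop :=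
  ∀ z : Fin 7 → ℂ, (∀ j ∈ A, z j = 0) → (∀ i, f i z = 0) → z = 0

/-- The group acts freely. -/
structure FreeU (p : Fin 9 → ℂ) : Prop where
  f1 : NoZero (vU p) {4, 5, 6}
  f2 : NoZero (vU p) {1, 2, 4, 5}
  f3 : NoZero (vU p) {0, 3, 6}
  f4 : NoZero (vU p) {0, 3, 4, 5}

variable {p : Fin 9 → ℂ}

theorem vU_zero {h x y w r s v : ℂ} (e0 : x * y - h ^ 2 + p 8 * w ^ 2 = 0)
    (e1 : (p 0 * (h * w) + p 1 * (x ^ 2 - y ^ 2)) + (p 5 * h ^ 2 + p 6 * w ^ 2 +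
      p 7 * (x ^ 2 + y ^ 2)) - r ^ 2 = 0)
    (e2 : (p 0 * (h * w) + p 1 * (x ^ 2 - y ^ 2)) - (p 5 * h ^ 2 + p 6 * w ^ 2 +
      p 7 * (x ^ 2 + y ^ 2)) - s ^ 2 = 0)
    (e3 : (p 2 * (h * w) + p 3 * (x ^ 2 - y ^ 2)) + 2 * (p 4 * (r * s)) - v ^ 2 = 0) :
    ∀ i, vU p i ![h, x, y, w, r, s, v] = 0 := by
  intro i
  fin_cases i
  · exact e0
  · exact e1
  · exact e2
  · exact e3

/-- A singular point, explicitly. -/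
theorem singPt {h x y w r s v l1 l2 l3 l4 : ℂ} (e0 : x * y - h ^ 2 + p 8 * w ^ 2 = 0)
    (e1 : (p 0 * (h * w) + p 1 * (x ^ 2 - y ^ 2)) + (p 5 * h ^ 2 + p 6 * w ^ 2 +
      p 7 * (x ^ 2 + y ^ 2)) - r ^ 2 = 0)
    (e2 : (p 0 * (h * w) + p 1 * (x ^ 2 - y ^ 2)) - (p 5 * h ^ 2 + p 6 * w ^ 2 +
      p 7 * (x ^ 2 + y ^ 2)) - s ^ 2 = 0)
    (e3 : (p 2 * (h * w) + p 3 * (x ^ 2 - y ^ 2)) + 2 * (p 4 * (r * s)) - v ^ 2 = 0)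
    (hz : (![h, x, y, w, r, s, v] : Fin 7 → ℂ) ≠ 0) (hl : (![l1, l2, l3, l4] : Fin 4 → ℂ) ≠ 0)
    (d0 : -2 * l1 * h + (l2 + l3) * (p 0 * w) + (l2 - l3) * (2 * p 5 * h) +
      l4 * (p 2 * w) = 0)
    (d1 : l1 * y + (l2 + l3) * (2 * p 1 * x) + (l2 - l3) * (2 * p 7 * x) +
      l4 * (2 * p 3 * x) = 0)
    (d2 : l1 * x - (l2 + l3) * (2 * p 1 * y) + (l2 - l3) * (2 * p 7 * y) -
      l4 * (2 * p 3 * y) = 0)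
    (d3 : 2 * p 8 * l1 * w + (l2 + l3) * (p 0 * h) + (l2 - l3) * (2 * p 6 * w) +
      l4 * (p 2 * h) = 0)
    (d4 : -2 * l2 * r + l4 * (2 * p 4 * s) = 0) (d5 : -2 * l3 * s + l4 * (2 * p 4 * r) = 0)
    (d6 : l4 * v = 0) :
    SingPt (vU p) ![h, x, y, w, r, s, v] ![l1, l2, l3, l4] := by
  refine ⟨vU_zero e0 e1 e2 e3, hz, hl, fun δ => ?_⟩
  rw [Fin.sum_univ_four]
  change l1 * (((x + δ 1) * (y + δ 2) - (h + δ 0) ^ 2 + p 8 * (w + δ 3) ^ 2) -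
      (x * y - h ^ 2 + p 8 * w ^ 2) - (δ 1 * δ 2 - δ 0 ^ 2 + p 8 * δ 3 ^ 2)) +
    l2 * (((p 0 * ((h + δ 0) * (w + δ 3)) + p 1 * ((x + δ 1) ^ 2 - (y + δ 2) ^ 2)) +
      (p 5 * (h + δ 0) ^ 2 + p 6 * (w + δ 3) ^ 2 + p 7 * ((x + δ 1) ^ 2 + (y + δ 2) ^ 2)) -
      (r + δ 4) ^ 2) - ((p 0 * (h * w) + p 1 * (x ^ 2 - y ^ 2)) + (p 5 * h ^ 2 + p 6 * w ^ 2 +
      p 7 * (x ^ 2 + y ^ 2)) - r ^ 2) - ((p 0 * (δ 0 * δ 3) + p 1 * (δ 1 ^ 2 - δ 2 ^ 2)) +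
      (p 5 * δ 0 ^ 2 + p 6 * δ 3 ^ 2 + p 7 * (δ 1 ^ 2 + δ 2 ^ 2)) - δ 4 ^ 2)) +
    l3 * (((p 0 * ((h + δ 0) * (w + δ 3)) + p 1 * ((x + δ 1) ^ 2 - (y + δ 2) ^ 2)) -
      (p 5 * (h + δ 0) ^ 2 + p 6 * (w + δ 3) ^ 2 + p 7 * ((x + δ 1) ^ 2 + (y + δ 2) ^ 2)) -
      (s + δ 5) ^ 2) - ((p 0 * (h * w) + p 1 * (x ^ 2 - y ^ 2)) - (p 5 * h ^ 2 + p 6 * w ^ 2 +
      p 7 * (x ^ 2 + y ^ 2)) - s ^ 2) - ((p 0 * (δ 0 * δ 3) + p 1 * (δ 1 ^ 2 - δ 2 ^ 2)) -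
      (p 5 * δ 0 ^ 2 + p 6 * δ 3 ^ 2 + p 7 * (δ 1 ^ 2 + δ 2 ^ 2)) - δ 5 ^ 2)) +
    l4 * (((p 2 * ((h + δ 0) * (w + δ 3)) + p 3 * ((x + δ 1) ^ 2 - (y + δ 2) ^ 2)) +
      2 * (p 4 * ((r + δ 4) * (s + δ 5))) - (v + δ 6) ^ 2) -
      ((p 2 * (h * w) + p 3 * (x ^ 2 - y ^ 2)) + 2 * (p 4 * (r * s)) - v ^ 2) -
      ((p 2 * (δ 0 * δ 3) + p 3 * (δ 1 ^ 2 - δ 2 ^ 2)) + 2 * (p 4 * (δ 4 * δ 5)) -
      δ 6 ^ 2)) = 0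
  linear_combination δ 0 * d0 + δ 1 * d1 + δ 2 * d2 + δ 3 * d3 + δ 4 * d4 + δ 5 * d5 -
    2 * δ 6 * d6

end Vale.Agent.P297.C8U
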