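import Vale.Agent.P297.H600.V3.Gen
import Vale.Agent.P297.H600.V3.Iso

/-!
The degree of the function field for the group `ℤ/4 × ℤ/2`.
-/

open MvPolynomial

namespace Vale.Agent.P297.C8U

open Vale.Agent.P297.H777.ZU (exists_sq)

section

variable {E : Type} [Field E] [Algebra ℂ E]

theorem GenPt.notMem {m : ℕ} {F : Fin m → MvPolynomial (Fin 7) ℂ} {t : Fin 7 → E}
    (hg : GenPt F t) (h0 : t 0 = 1) {ι : Type} (i : ι → Fin 7) (j : Fin 7) (hj : t j ≠ 0)
    {Ω : Type} [Field Ω] [Algebra ℂ Ω] (φ : E →ₐ[ℂ] Ω) (z : Fin 7 → Ω) (hz0 : z 0 = 1)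
    (hz : ∀ k, aeval z (F k) = 0) (hi : ∀ k, z (i k) = φ (t (i k))) (hne : z j ≠ φ (t j)) :
    t j ∉ IntermediateField.adjoin ℂ (Set.range (t ∘ i)) := by
  intro hmem
  rw [IntermediateField.mem_adjoin_range_iff] at hmem
  obtain ⟨P, Q, hPQ⟩ := hmem
  have hQ : aeval (t ∘ i) Q ≠ 0 := by
    intro h1
    apply hj
    rw [hPQ, h1, div_zero]
  have h1 : aeval t (rename i Q * X j - rename i P) = 0 := by
    rw [map_sub, map_mul, aeval_rename, aeval_rename, aeval_X, hPQ, mul_div_cancel₀ _ hQ, sub_self]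
  have h2 := hg.affine h0 _ h1 Ω z hz0 hz
  rw [map_sub, map_mul, aeval_rename, aeval_rename, aeval_X] at h2
  have h3 : z ∘ i = fun k => φ ((t ∘ i) k) := funext hi
  have h4 : ∀ R : MvPolynomial ι ℂ, aeval (z ∘ i) R = φ (aeval (t ∘ i) R) := by
    intro R
    rw [h3]
    exact (comp_aeval_apply _ φ R).symm
  rw [h4, h4] at h2
  apply hne
  apply mul_left_cancel₀ (show φ (aeval (t ∘ i) Q) ≠ 0 from by
    rw [Ne, map_eq_zero]
    exact hQ)
  rw [← map_mul, hPQ, mul_div_cancel₀ _ hQ]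
  exact sub_eq_zero.1 h2

theorem GenPt.ne_zero {m : ℕ} {F : Fin m → MvPolynomial (Fin 7) ℂ} {t : Fin 7 → E}
    (hg : GenPt F t) (j : Fin 7) (z : Fin 7 → ℂ) (hz : ∀ k, aeval z (F k) = 0) (hj : z j ≠ 0) :
    t j ≠ 0 := by
  intro h1
  have h2 := hg 1 (X j) (isHomogeneous_X ℂ j) (by rw [aeval_X]; exact h1) ℂ z hz
  rw [aeval_X] at h2
  exact hj h2

variable {p : Fin 9 → ℂ}

theorem aeval_vU (z : Fin 7 → ℂ) (i : Fin 4) : aeval z (P42 p i) = vU p i z := by
  obtain ⟨z0, z1, z2, z3⟩ := aeval_F42 p z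
  fin_cases i
  · exact z0
  · exact z1
  · exact z2
  · exact z3

theorem zero_of {Ω : Type} [Field Ω] [Algebra ℂ Ω] {h x y w r s v : Ω}
    (e0 : x * y - h ^ 2 + algebraMap ℂ Ω (p 8) * w ^ 2 = 0)
    (e1 : (algebraMap ℂ Ω (p 0) * (h * w) + algebraMap ℂ Ω (p 1) * (x ^ 2 - y ^ 2)) +
      (algebraMap ℂ Ω (p 5) * h ^ 2 + algebraMap ℂ Ω (p 6) * w ^ 2 +
      algebraMap ℂ Ω (p 7) * (x ^ 2 + y ^ 2)) - r ^ 2 = 0)
    (e2 : (algebraMap ℂ Ω (p 0) * (h * w) + algebraMap ℂ Ω (p 1) * (x ^ 2 - y ^ 2)) -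
      (algebraMap ℂ Ω (p 5) * h ^ 2 + algebraMap ℂ Ω (p 6) * w ^ 2 +
      algebraMap ℂ Ω (p 7) * (x ^ 2 + y ^ 2)) - s ^ 2 = 0)
    (e3 : (algebraMap ℂ Ω (p 2) * (h * w) + algebraMap ℂ Ω (p 3) * (x ^ 2 - y ^ 2)) +
      2 * (algebraMap ℂ Ω (p 4) * (r * s)) - v ^ 2 = 0) :
    ∀ i, aeval ![h, x, y, w, r, s, v] (P42 p i) = 0 := by
  obtain ⟨z0, z1, z2, z3⟩ := aeval_F42 p ![h, x, y, w, r, s, v]
  intro i
  fin_cases i
  · exact z0.trans e0
  · exact z1.trans e1
  · exact z2.trans e2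
  · exact z3.trans e3

/-- **The degree of the function field.** -/
theorem finrank8 {t : Fin 7 → E} (cm : p 0 * p 3 ≠ p 1 * p 2) (cg : p 1 ≠ 0 ∨ p 7 ≠ 0)
    (h : IsFF (P42 p) t) (hg : GenPt (P42 p) t) :
    Module.finrank (IntermediateField.adjoin ℂ {t 1, t 3}) E = 8 := by
  -- the coordinates do not vanish
  have hx : t 1 ≠ 0 := by
    obtain ⟨r, hr⟩ := exists_sq (p 1 + p 7)
    obtain ⟨s, hs⟩ := exists_sq (p 1 - p 7)
    obtain ⟨v, hv⟩ := exists_sq (p 3 + 2 * (p 4 * (r * s)))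
    refine hg.ne_zero 1 ![0, 1, 0, 0, r, s, v] (fun k => ?_) one_ne_zero
    rw [aeval_vU]
    exact vU_zero (by ring) (by rw [hr]; ring) (by rw [hs]; ring) (by rw [hv]; ring) k
  have hr : t 4 ≠ 0 := by
    by_cases h1 : p 1 + p 7 = 0
    · obtain ⟨r, hr⟩ := exists_sq (p 7 - p 1)
      obtain ⟨s, hs⟩ := exists_sq (-p 1 - p 7)
      obtain ⟨v, hv⟩ := exists_sq (-p 3 + 2 * (p 4 * (r * s)))
      refine hg.ne_zero 4 ![0, 0, 1, 0, r, s, v] (fun k => ?_) ?_
      · rw [aeval_vU]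
        exact vU_zero (by ring) (by rw [hr]; ring) (by rw [hs]; ring) (by rw [hv]; ring) k
      · change r ≠ 0
        rintro rfl
        have h2 : p 1 = 0 := by linear_combination h1 / 2 + hr / 2
        have h3 : p 7 = 0 := by linear_combination h1 / 2 - hr / 2
        rcases cg with h4 | h4
        · exact h4 h2
        · exact h4 h3
    · obtain ⟨r, hr⟩ := exists_sq (p 1 + p 7)
      obtain ⟨s, hs⟩ := exists_sq (p 1 - p 7)
      obtain ⟨v, hv⟩ := exists_sq (p 3 + 2 * (p 4 * (r * s)))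
      refine hg.ne_zero 4 ![0, 1, 0, 0, r, s, v] (fun k => ?_) ?_
      · rw [aeval_vU]
        exact vU_zero (by ring) (by rw [hr]; ring) (by rw [hs]; ring) (by rw [hv]; ring) k
      · change r ≠ 0
        rintro rfl
        apply h1
        rw [← hr]
        ring
  have hs : t 5 ≠ 0 := by
    by_cases h1 : p 1 - p 7 = 0
    · obtain ⟨r, hr⟩ := exists_sq (p 7 - p 1)
      obtain ⟨s, hs⟩ := exists_sq (-p 1 - p 7)
      obtain ⟨v, hv⟩ := exists_sq (-p 3 + 2 * (p 4 * (r * s)))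
      refine hg.ne_zero 5 ![0, 0, 1, 0, r, s, v] (fun k => ?_) ?_
      · rw [aeval_vU]
        exact vU_zero (by ring) (by rw [hr]; ring) (by rw [hs]; ring) (by rw [hv]; ring) k
      · change s ≠ 0
        rintro rfl
        have h2 : p 1 = 0 := by linear_combination h1 / 2 + hs / 2
        have h3 : p 7 = 0 := by linear_combination -h1 / 2 + hs / 2
        rcases cg with h4 | h4
        · exact h4 h2
        · exact h4 h3
    · obtain ⟨r, hr⟩ := exists_sq (p 1 + p 7)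
      obtain ⟨s, hs⟩ := exists_sq (p 1 - p 7)
      obtain ⟨v, hv⟩ := exists_sq (p 3 + 2 * (p 4 * (r * s)))
      refine hg.ne_zero 5 ![0, 1, 0, 0, r, s, v] (fun k => ?_) ?_
      · rw [aeval_vU]
        exact vU_zero (by ring) (by rw [hr]; ring) (by rw [hs]; ring) (by rw [hv]; ring) k
      · change s ≠ 0
        rintro rfl
        apply h1
        rw [← hs]
        ring
  have hv : t 6 ≠ 0 := by
    -- a point of the quadric with `M ≠ 0`
    obtain ⟨a, b, c, d, hq, hM⟩ : ∃ a b c d : ℂ, b * c - a ^ 2 + p 8 * d ^ 2 = 0 ∧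
        p 2 * (a * d) + p 3 * (b ^ 2 - c ^ 2) ≠ 0 := by
      by_cases h3 : p 3 = 0
      · refine ⟨1, 1, 1 - p 8, 1, by ring, ?_⟩
        rw [h3]
        intro h4
        apply cm
        have h5 : p 2 = 0 := by linear_combination h4
        rw [h3, h5]
        ring
      · refine ⟨0, 1, 0, 0, by ring, ?_⟩
        intro h4
        apply h3
        linear_combination h4
    obtain ⟨r, hr⟩ := exists_sq ((p 0 * (a * d) + p 1 * (b ^ 2 - c ^ 2)) + (p 5 * a ^ 2 +
      p 6 * d ^ 2 + p 7 * (b ^ 2 + c ^ 2)))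
    obtain ⟨s, hs⟩ := exists_sq ((p 0 * (a * d) + p 1 * (b ^ 2 - c ^ 2)) - (p 5 * a ^ 2 +
      p 6 * d ^ 2 + p 7 * (b ^ 2 + c ^ 2)))
    obtain ⟨v, hv⟩ := exists_sq ((p 2 * (a * d) + p 3 * (b ^ 2 - c ^ 2)) +
      2 * (p 4 * (r * s)))
    obtain ⟨v', hv'⟩ := exists_sq ((p 2 * (a * d) + p 3 * (b ^ 2 - c ^ 2)) +
      2 * (p 4 * (r * -s)))
    by_cases h1 : v = 0
    · refine hg.ne_zero 6 ![a, b, c, d, r, -s, v'] (fun k => ?_) ?_
      · rw [aeval_vU]
        exact vU_zero (by linear_combination hq) (by rw [hr]; ring) (by rw [neg_sq, hs]; ring)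
          (by rw [hv']; ring) k
      · change v' ≠ 0
        intro h2
        rw [h1] at hv
        rw [h2] at hv'
        apply hM
        linear_combination -(hv + hv') / 2
    · refine hg.ne_zero 6 ![a, b, c, d, r, s, v] (fun k => ?_) h1
      rw [aeval_vU]
      exact vU_zero (by linear_combination hq) (by rw [hr]; ring) (by rw [hs]; ring)
          (by rw [hv]; ring) k
  -- the equations
  obtain ⟨z0, z1, z2, z3⟩ := aeval_F42 p t
  rw [h.zero] at z0 z1 z2 z3
  rw [h.one] at z0 z1 z2 z3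
  -- the fields
  have hK0 : IntermediateField.adjoin ℂ {t 1, t 3} =
      IntermediateField.adjoin ℂ (Set.range (t ∘ ![1, 3])) := by
    congr 1
    ext z
    simp only [Set.mem_insert_iff, Set.mem_singleton_iff, Set.mem_range, Function.comp_apply]
    constructor
    · rintro (rfl | rfl)
      · exact ⟨0, rfl⟩
      · exact ⟨1, rfl⟩
    · rintro ⟨i, rfl⟩
      fin_cases i
      · exact Or.inl rfl
      · exact Or.inr rfl
  rw [hK0]
  set K0 := IntermediateField.adjoin ℂ (Set.range (t ∘ ![1, 3])) with hK0'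
  set K1 := IntermediateField.adjoin ℂ (Set.range (t ∘ ![1, 3, 4])) with hK1
  set K2 := IntermediateField.adjoin ℂ (Set.range (t ∘ ![1, 3, 4, 5])) with hK2
  have m1 : t 1 ∈ K0 := IntermediateField.subset_adjoin _ _ ⟨0, rfl⟩
  have m3 : t 3 ∈ K0 := IntermediateField.subset_adjoin _ _ ⟨1, rfl⟩
  have n1 : t 1 ∈ K1 := IntermediateField.subset_adjoin _ _ ⟨0, rfl⟩
  have n3 : t 3 ∈ K1 := IntermediateField.subset_adjoin _ _ ⟨1, rfl⟩
  have n4 : t 4 ∈ K1 := IntermediateField.subset_adjoin _ _ ⟨2, rfl⟩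
  have o1 : t 1 ∈ K2 := IntermediateField.subset_adjoin _ _ ⟨0, rfl⟩
  have o3 : t 3 ∈ K2 := IntermediateField.subset_adjoin _ _ ⟨1, rfl⟩
  have o4 : t 4 ∈ K2 := IntermediateField.subset_adjoin _ _ ⟨2, rfl⟩
  have o5 : t 5 ∈ K2 := IntermediateField.subset_adjoin _ _ ⟨3, rfl⟩
  have hc : ∀ (K : IntermediateField ℂ E) (c : ℂ), algebraMap ℂ E c ∈ K :=
    fun K c => K.algebraMap_mem c
  have l01 : K0 ≤ K1 := by
    rw [hK0', IntermediateField.adjoin_le_iff]
    rintro _ ⟨i, rfl⟩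
    fin_cases i
    · exact n1
    · exact n3
  have l12 : K1 ≤ K2 := by
    rw [hK1, IntermediateField.adjoin_le_iff]
    rintro _ ⟨i, rfl⟩
    fin_cases i
    · exact o1
    · exact o3
    · exact o4
  have m2 : t 2 ∈ K0 := by
    have h1 : t 2 = (1 - algebraMap ℂ E (p 8) * t 3 ^ 2) / t 1 := by
      rw [eq_div_iff hx]
      linear_combination -z0
    rw [h1]
    exact div_mem (sub_mem (one_mem _) (mul_mem (hc _ _) (pow_mem m3 2))) m1
  have mT : (algebraMap ℂ E (p 0) * (1 * t 3) + algebraMap ℂ E (p 1) * (t 1 ^ 2 - t 2 ^ 2)) ∈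
      K0 :=
    add_mem (mul_mem (hc _ _) (mul_mem (one_mem _) m3))
      (mul_mem (hc _ _) (sub_mem (pow_mem m1 2) (pow_mem m2 2)))
  have mM : (algebraMap ℂ E (p 2) * (1 * t 3) + algebraMap ℂ E (p 3) * (t 1 ^ 2 - t 2 ^ 2)) ∈
      K0 :=
    add_mem (mul_mem (hc _ _) (mul_mem (one_mem _) m3))
      (mul_mem (hc _ _) (sub_mem (pow_mem m1 2) (pow_mem m2 2)))
  have mA : (algebraMap ℂ E (p 5) * 1 ^ 2 + algebraMap ℂ E (p 6) * t 3 ^ 2 +
      algebraMap ℂ E (p 7) * (t 1 ^ 2 + t 2 ^ 2)) ∈ K0 :=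
    add_mem (add_mem (mul_mem (hc _ _) (pow_mem (one_mem _) 2))
      (mul_mem (hc _ _) (pow_mem m3 2)))
      (mul_mem (hc _ _) (add_mem (pow_mem m1 2) (pow_mem m2 2)))
  -- the conjugate points
  let φ : E →ₐ[ℂ] AlgebraicClosure E := IsScalarTower.toAlgHom ℂ E (AlgebraicClosure E)
  have hφ : ∀ c : ℂ, algebraMap ℂ (AlgebraicClosure E) c = φ (algebraMap ℂ E c) :=
    fun c => (φ.commutes c).symm
  have w0 := congrArg φ z0
  have w1 := congrArg φ z1
  have w2 := congrArg φ z2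
  have w3 := congrArg φ z3
  simp only [map_add, map_sub, map_mul, map_pow, map_one, map_zero, map_ofNat, ← hφ] at w0 w1 w2 w3
  obtain ⟨v', hv'⟩ := IsAlgClosed.exists_pow_nat_eq
    ((algebraMap ℂ (AlgebraicClosure E) (p 2) * (1 * φ (t 3)) +
      algebraMap ℂ (AlgebraicClosure E) (p 3) * (φ (t 1) ^ 2 - φ (t 2) ^ 2)) -
      2 * (algebraMap ℂ (AlgebraicClosure E) (p 4) * (φ (t 4) * φ (t 5)))) (n := 2) (by norm_num)
  have : CharZero (AlgebraicClosure E) :=
    charZero_of_injective_algebraMap (algebraMap ℂ (AlgebraicClosure E)).injective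
  have hneg : ∀ {j : Fin 7}, t j ≠ 0 → -φ (t j) ≠ φ (t j) := by
    intro j hj h1
    have h2 : (2 : AlgebraicClosure E) * φ (t j) = 0 := by linear_combination -h1
    rcases mul_eq_zero.1 h2 with h3 | h3
    · exact two_ne_zero h3
    · exact hj ((map_eq_zero φ).1 h3)
  have s1 : Module.finrank K0 E = 2 * Module.finrank K1 E := by
    refine finrank_step (θ := t 4) ?_ ?_ l01 n4 ?_
    · have h1 : t 4 ^ 2 = (algebraMap ℂ E (p 0) * (1 * t 3) + algebraMap ℂ E (p 1) *
          (t 1 ^ 2 - t 2 ^ 2)) + (algebraMap ℂ E (p 5) * 1 ^ 2 + algebraMap ℂ E (p 6) * t 3 ^ 2 +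
          algebraMap ℂ E (p 7) * (t 1 ^ 2 + t 2 ^ 2)) := by linear_combination z1
      rw [h1]
      exact add_mem mT mA
    · refine hg.notMem h.one ![1, 3] 4 hr φ
        ![1, φ (t 1), φ (t 2), φ (t 3), -φ (t 4), φ (t 5), v'] rfl (zero_of ?_ ?_ ?_ ?_) ?_
        (hneg hr)
      · linear_combination -w0
      · linear_combination -w1
      · linear_combination -w2
      · rw [hv']
        ring
      · intro k
        fin_cases k <;> rfl
    · intro K hK h4
      rw [hK1, IntermediateField.adjoin_le_iff]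
      rintro _ ⟨i, rfl⟩
      fin_cases i
      · exact hK m1
      · exact hK m3
      · exact h4
  have s2 : Module.finrank K1 E = 2 * Module.finrank K2 E := by
    refine finrank_step (θ := t 5) ?_ ?_ l12 o5 ?_
    · have h1 : t 5 ^ 2 = (algebraMap ℂ E (p 0) * (1 * t 3) + algebraMap ℂ E (p 1) *
          (t 1 ^ 2 - t 2 ^ 2)) - (algebraMap ℂ E (p 5) * 1 ^ 2 + algebraMap ℂ E (p 6) * t 3 ^ 2 +
          algebraMap ℂ E (p 7) * (t 1 ^ 2 + t 2 ^ 2)) := by linear_combination z2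
      rw [h1]
      exact l01 (sub_mem mT mA)
    · refine hg.notMem h.one ![1, 3, 4] 5 hs φ
        ![1, φ (t 1), φ (t 2), φ (t 3), φ (t 4), -φ (t 5), v'] rfl (zero_of ?_ ?_ ?_ ?_) ?_
        (hneg hs)
      · linear_combination -w0
      · linear_combination -w1
      · linear_combination -w2
      · rw [hv']
        ring
      · intro k
        fin_cases k <;> rfl
    · intro K hK h4
      rw [hK2, IntermediateField.adjoin_le_iff]
      rintro _ ⟨i, rfl⟩
      fin_cases i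
      · exact hK n1
      · exact hK n3
      · exact hK n4
      · exact h4
  have s3 : Module.finrank K2 E = 2 * Module.finrank (⊤ : IntermediateField ℂ E) E := by
    refine finrank_step (θ := t 6) ?_ ?_ le_top trivial ?_
    · have h1 : t 6 ^ 2 = (algebraMap ℂ E (p 2) * (1 * t 3) + algebraMap ℂ E (p 3) *
          (t 1 ^ 2 - t 2 ^ 2)) + 2 * (algebraMap ℂ E (p 4) * (t 4 * t 5)) := by
        linear_combination z3
      rw [h1, two_mul]
      have h2 : algebraMap ℂ E (p 4) * (t 4 * t 5) ∈ K2 := mul_mem (hc _ _) (mul_mem o4 o5)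
      exact add_mem (l12 (l01 mM)) (add_mem h2 h2)
    · refine hg.notMem h.one ![1, 3, 4, 5] 6 hv φ
        ![1, φ (t 1), φ (t 2), φ (t 3), φ (t 4), φ (t 5), -φ (t 6)] rfl (zero_of ?_ ?_ ?_ ?_) ?_
        (hneg hv)
      · linear_combination -w0
      · linear_combination -w1
      · linear_combination -w2
      · linear_combination -w3
      · intro k
        fin_cases k <;> rfl
    · intro K hK h4
      rw [← h.top, IntermediateField.adjoin_le_iff]
      rintro _ ⟨i, rfl⟩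
      fin_cases i
      · change t 0 ∈ K
        rw [h.one]
        exact one_mem _
      · exact hK o1
      · exact hK (l12 (l01 m2))
      · exact hK o3
      · exact hK o4
      · exact hK o5
      · exact h4
  rw [s1, s2, s3, IntermediateField.finrank_top]

end

end Vale.Agent.P297.C8U
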