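import Vale.Agent.P297.H600.V3.Iso

/-!
The conditions `Good` follow from the freeness of the action and the isolated singularities.
-/

open MvPolynomial

namespace Vale.Agent.P297.C8U

open Vale.Agent.P297.H777.ZU (exists_sq exists_ker2 exists_yz exists_squares)

variable {p : Fin 9 → ℂ}

theorem FreeU.cm (H : FreeU p) : p 0 * p 3 ≠ p 1 * p 2 := by
  intro h0
  obtain ⟨t1, t2, ht, ht1, ht2⟩ : ∃ t1 t2 : ℂ, (t1 ≠ 0 ∨ t2 ≠ 0) ∧ t1 * p 0 + t2 * p 1 = 0 ∧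
      t1 * p 2 + t2 * p 3 = 0 := by
    by_cases h1 : p 0 = 0 ∧ p 1 = 0
    · by_cases h2 : p 2 = 0 ∧ p 3 = 0
      · exact ⟨1, 0, Or.inl one_ne_zero, by rw [h1.1]; ring, by rw [h2.1]; ring⟩
      · refine ⟨p 3, -p 2, ?_, by rw [h1.1, h1.2]; ring, by ring⟩
        by_contra hcon
        push Not at hcon
        exact h2 ⟨neg_eq_zero.1 hcon.2, hcon.1⟩
    · refine ⟨p 1, -p 0, ?_, by ring, by linear_combination (-1) * h0⟩
      by_contra hcon
      push Not at hcon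
      exact h1 ⟨neg_eq_zero.1 hcon.2, hcon.1⟩
  obtain ⟨x, y, h, w, hne, e1, e2, e3⟩ := exists_squares (p 5) (p 6) (p 7) (p 8) t1 t2
  have hT : ∀ a b : ℂ, t1 * a + t2 * b = 0 → a * (h * w) + b * (x ^ 2 - y ^ 2) = 0 := by
    intro a b hab
    have g1 : t1 * (a * (h * w) + b * (x ^ 2 - y ^ 2)) = 0 := by
      linear_combination (h * w) * hab - b * e3
    have g2 : t2 * (a * (h * w) + b * (x ^ 2 - y ^ 2)) = 0 := by
      linear_combination (x ^ 2 - y ^ 2) * hab + a * e3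
    rcases ht with h1 | h1
    · exact (mul_eq_zero.1 g1).resolve_left h1
    · exact (mul_eq_zero.1 g2).resolve_left h1
  have hTc := hT _ _ ht1
  have hTm := hT _ _ ht2
  have hz := H.f1 ![h, x, y, w, 0, 0, 0] (by
    intro j hj
    simp only [Finset.mem_insert, Finset.mem_singleton] at hj
    rcases hj with rfl | rfl | rfl <;> rfl) (vU_zero (by linear_combination e1)
    (by linear_combination hTc + e2) (by linear_combination hTc - e2)
    (by linear_combination hTm))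
  have h' : ∀ j, (![h, x, y, w, 0, 0, 0] : Fin 7 → ℂ) j = 0 := fun j => congrFun hz j
  rcases hne with h2 | h2 | h2 | h2
  · exact h2 (h' 1)
  · exact h2 (h' 2)
  · exact h2 (h' 0)
  · exact h2 (h' 3)

theorem FreeU.cg (H : FreeU p) : p 1 ≠ 0 ∨ p 7 ≠ 0 := by
  by_contra hcon
  push Not at hcon
  obtain ⟨h1, h2⟩ := hcon
  obtain ⟨v, hv⟩ := exists_sq (p 3)
  have hz := H.f4 ![0, 1, 0, 0, 0, 0, v] (by
    intro j hj
    simp only [Finset.mem_insert, Finset.mem_singleton] at hj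
    rcases hj with rfl | rfl | rfl | rfl <;> rfl) (vU_zero (by ring)
    (by rw [h1, h2]; ring) (by rw [h1, h2]; ring) (by rw [hv]; ring))
  exact one_ne_zero (congrFun hz 1)

theorem FreeU.g3 (H : FreeU p) (hβ : p 6 = -(p 8 * p 5)) : p 0 ≠ 0 ∧ p 8 ≠ 0 := by
  constructor
  · intro h1
    obtain ⟨h, hh⟩ := exists_sq (p 8)
    obtain ⟨v, hv⟩ := exists_sq (p 2 * h)
    have hz := H.f2 ![h, 0, 0, 1, 0, 0, v] (by
      intro j hj
      simp only [Finset.mem_insert, Finset.mem_singleton] at hj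
      rcases hj with rfl | rfl | rfl | rfl <;> rfl) (vU_zero (by rw [hh]; ring)
      (by rw [h1, hh, hβ]; ring) (by rw [h1, hh, hβ]; ring) (by rw [hv]; ring))
    exact one_ne_zero (congrFun hz 3)
  · intro h1
    have hβ0 : p 6 = 0 := by rw [hβ, h1]; ring
    have hz := H.f2 ![0, 0, 0, 1, 0, 0, 0] (by
      intro j hj
      simp only [Finset.mem_insert, Finset.mem_singleton] at hj
      rcases hj with rfl | rfl | rfl | rfl <;> rfl) (vU_zero (by rw [h1]; ring)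
      (by rw [hβ0]; ring) (by rw [hβ0]; ring) (by ring))
    exact one_ne_zero (congrFun hz 3)

theorem FreeU.g5 (H : FreeU p) (hn : p 4 = 0) : p 3 ≠ 0 := by
  intro h0
  obtain ⟨r, hr⟩ := exists_sq (p 1 + p 7)
  obtain ⟨s, hs⟩ := exists_sq (p 1 - p 7)
  have hz := H.f3 ![0, 1, 0, 0, r, s, 0] (by
    intro j hj
    simp only [Finset.mem_insert, Finset.mem_singleton] at hj
    rcases hj with rfl | rfl | rfl <;> rfl) (vU_zero (by ring)
    (by rw [hr]; ring) (by rw [hs]; ring) (by rw [h0, hn]; ring))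
  exact one_ne_zero (congrFun hz 1)

theorem ne_of_coord {n : ℕ} {z : Fin n → ℂ} (j : Fin n) (h : z j ≠ 0) : z ≠ 0 := by
  rintro rfl
  exact h rfl

/-- the first case: a curve of singular points -/
theorem iso_g4a (H : IsoPol (vU p)) (h3 : p 6 = -(p 8 * p 5) → p 0 ≠ 0 ∧ p 8 ≠ 0)
    (hβ : p 6 = p 8 * p 5) (h1 : p 0 ^ 2 = 4 * p 8 * p 5 ^ 2) (h2 : p 1 ^ 2 = p 7 ^ 2) :
    False := by
  have hα : p 5 ≠ 0 := by
    intro h4
    have h5 : p 0 = 0 := by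
      rw [h4] at h1
      exact pow_eq_zero_iff two_ne_zero |>.1 (by rw [h1]; ring)
    exact (h3 (by rw [hβ, h4]; ring)).1 h5
  obtain ⟨e, he⟩ : ∃ e, e = p 0 / (2 * p 5) := ⟨_, rfl⟩
  have e1 : 2 * p 5 * e = p 0 := by
    rw [he]
    field_simp
  have e2 : e ^ 2 = p 8 := by
    have h4 : 4 * p 5 ^ 2 * (e ^ 2 - p 8) = 0 := by
      linear_combination (2 * p 5 * e + p 0) * e1 + h1
    exact sub_eq_zero.1 ((mul_eq_zero.1 h4).resolve_left
      (mul_ne_zero (by norm_num) (pow_ne_zero 2 hα)))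
  have h5 : (p 1 - p 7) * (p 1 + p 7) = 0 := by linear_combination h2
  rcases mul_eq_zero.1 h5 with h6 | h6
  · have h7 : p 1 = p 7 := sub_eq_zero.1 h6
    refine not_all (H.finz 2 3) (P := 1) one_ne_zero fun c _ => ?_
    obtain ⟨s, hs⟩ := exists_sq (-4 * p 5 * p 8 - 2 * p 7 * c ^ 2)
    obtain ⟨v, hv⟩ := exists_sq (-p 2 * e - p 3 * c ^ 2)
    refine ⟨![-e, 0, c, 1, 0, s, v], ![0, 1, 0, 0], singPt ?_ ?_ ?_ ?_ ?_ ?_ ?_ ?_ ?_ ?_ ?_ ?_ ?_,
      ?_, ?_⟩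
    · linear_combination -e2
    · rw [h7, hβ]
      linear_combination e * e1 - p 5 * e2
    · rw [h7, hβ, hs]
      linear_combination e * e1 - 3 * p 5 * e2
    · rw [hv]
      ring
    · exact ne_of_coord 3 one_ne_zero
    · exact ne_of_coord 1 one_ne_zero
    · linear_combination -e1
    · ring
    · rw [h7]
      ring
    · rw [hβ]
      linear_combination e * e1 - 2 * p 5 * e2
    · ring
    · ring
    · ring
    · exact one_ne_zero
    · change c = c * 1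
      rw [mul_one]
  · have h7 : p 1 = -p 7 := eq_neg_of_add_eq_zero_left h6
    refine not_all (H.finz 1 3) (P := 1) one_ne_zero fun c _ => ?_
    obtain ⟨s, hs⟩ := exists_sq (-4 * p 5 * p 8 - 2 * p 7 * c ^ 2)
    obtain ⟨v, hv⟩ := exists_sq (-p 2 * e + p 3 * c ^ 2)
    refine ⟨![-e, c, 0, 1, 0, s, v], ![0, 1, 0, 0], singPt ?_ ?_ ?_ ?_ ?_ ?_ ?_ ?_ ?_ ?_ ?_ ?_ ?_,
      ?_, ?_⟩
    · linear_combination -e2
    · rw [h7, hβ]
      linear_combination e * e1 - p 5 * e2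
    · rw [h7, hβ, hs]
      linear_combination e * e1 - 3 * p 5 * e2
    · rw [hv]
      ring
    · exact ne_of_coord 3 one_ne_zero
    · exact ne_of_coord 1 one_ne_zero
    · linear_combination -e1
    · rw [h7]
      ring
    · ring
    · rw [hβ]
      linear_combination e * e1 - 2 * p 5 * e2
    · ring
    · ring
    · ring
    · exact one_ne_zero
    · change c = c * 1
      rw [mul_one]

/-- the second case: a line of singular points -/
theorem iso_g4b (H : IsoPol (vU p)) (cm : p 0 * p 3 ≠ p 1 * p 2)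
    (h3 : p 6 = -(p 8 * p 5) → p 0 ≠ 0 ∧ p 8 ≠ 0)
    (hβ : p 6 = p 8 * p 5) (h1 : p 5 ^ 2 = 4 * p 7 ^ 2) (h2 : p 0 ^ 2 = 16 * p 8 * p 1 ^ 2) :
    False := by
  have hI : Complex.I ^ 2 = -1 := Complex.I_sq
  have hc2 : p 1 ≠ 0 := by
    intro h4
    apply cm
    have h5 : p 0 = 0 := by
      rw [h4] at h2
      exact pow_eq_zero_iff two_ne_zero |>.1 (by rw [h2]; ring)
    rw [h4, h5]
    ring
  have hε : p 8 ≠ 0 := by
    intro h4
    exact (h3 (by rw [hβ, h4]; ring)).2 h4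
  obtain ⟨e, he⟩ : ∃ e, e = p 0 / (4 * p 1) := ⟨_, rfl⟩
  have e1 : p 0 = 4 * p 1 * e := by
    rw [he]
    field_simp
  have e2 : p 8 = e ^ 2 := by
    rw [e1] at h2
    have h4 : 16 * p 1 ^ 2 * (p 8 - e ^ 2) = 0 := by linear_combination -h2
    exact sub_eq_zero.1 ((mul_eq_zero.1 h4).resolve_left
      (mul_ne_zero (by norm_num) (pow_ne_zero 2 hc2)))
  have he0 : e ≠ 0 := by
    rintro rfl
    apply hε
    rw [e2]
    ring
  have hP : (Polynomial.X ^ 2 + 1 : Polynomial ℂ) ≠ 0 := by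
    intro h4
    have h5 := congrArg (fun f : Polynomial ℂ => f.eval 0) h4
    simp at h5
  have hPe : ∀ c : ℂ, (Polynomial.X ^ 2 + 1 : Polynomial ℂ).eval c ≠ 0 → c ^ 2 + 1 ≠ 0 := by
    intro c hc
    simpa using hc
  have h5 : (p 5 - 2 * p 7) * (p 5 + 2 * p 7) = 0 := by linear_combination h1
  rw [e2] at hβ
  rcases mul_eq_zero.1 h5 with h6 | h6
  · have h7 : p 5 = 2 * p 7 := sub_eq_zero.1 h6
    refine not_all (H.finz 2 1) hP fun c hc => ?_
    obtain ⟨w, hw⟩ : ∃ w, w = Complex.I * (1 + c) / (2 * e) := ⟨_, rfl⟩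
    have hw' : 2 * e * w = Complex.I * (1 + c) := by
      rw [hw]
      field_simp
    obtain ⟨v, hv⟩ := exists_sq (p 2 * (Complex.I * (1 - c) / 2 * w) + p 3 * (1 - c ^ 2))
    refine ⟨![Complex.I * (1 - c) / 2, 1, c, w, 0, 0, v],
      ![-4 * p 1 * p 7 * c, (p 7 * (c ^ 2 - 1) + p 1 * (c ^ 2 + 1)) / 2,
        (p 7 * (c ^ 2 - 1) - p 1 * (c ^ 2 + 1)) / 2, 0],
      singPt ?_ ?_ ?_ ?_ ?_ ?_ ?_ ?_ ?_ ?_ ?_ ?_ ?_, ?_, ?_⟩
    · rw [e2]
      linear_combination (2 * e * w + Complex.I * (1 + c)) / 4 * hw' + c * hI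
    · rw [e1, hβ, h7]
      linear_combination (p 1 * Complex.I * (1 - c) + p 7 * (2 * e * w + Complex.I * (1 + c)) / 2)
        * hw' + (p 1 * (1 - c ^ 2) + p 7 * (1 + c ^ 2)) * hI
    · rw [e1, hβ, h7]
      linear_combination (p 1 * Complex.I * (1 - c) - p 7 * (2 * e * w + Complex.I * (1 + c)) / 2)
        * hw' + (p 1 * (1 - c ^ 2) - p 7 * (1 + c ^ 2)) * hI
    · rw [hv]
      ring
    · exact ne_of_coord 1 one_ne_zero
    · intro h8
      have a1 : (p 7 * (c ^ 2 - 1) + p 1 * (c ^ 2 + 1)) / 2 = 0 := congrFun h8 1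
      have a2 : (p 7 * (c ^ 2 - 1) - p 1 * (c ^ 2 + 1)) / 2 = 0 := congrFun h8 2
      have a3 : p 1 * (c ^ 2 + 1) = 0 := by linear_combination a1 - a2
      rcases mul_eq_zero.1 a3 with h | h
      · exact hc2 h
      · exact hPe c hc h
    · rw [e1, h7]
      linear_combination (2 * p 7 * (c ^ 2 - 1) * p 1) * hw'
    · ring
    · ring
    · rw [e1, e2, hβ, h7]
      linear_combination (-4 * p 1 * p 7 * c * e + 2 * p 7 * e * p 1 * (c ^ 2 + 1)) * hw'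
    · ring
    · ring
    · ring
    · exact one_ne_zero
    · change c = c * 1
      rw [mul_one]
  · have h7 : p 5 = -(2 * p 7) := eq_neg_of_add_eq_zero_left h6
    refine not_all (H.finz 2 1) hP fun c hc => ?_
    obtain ⟨w, hw⟩ : ∃ w, w = (c - 1) / (2 * e) := ⟨_, rfl⟩
    have hw' : 2 * e * w = c - 1 := by
      rw [hw]
      field_simp
    obtain ⟨v, hv⟩ := exists_sq (p 2 * ((c + 1) / 2 * w) + p 3 * (1 - c ^ 2))
    refine ⟨![(c + 1) / 2, 1, c, w, 0, 0, v],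
      ![-4 * p 1 * p 7 * c, (p 7 * (c ^ 2 - 1) + p 1 * (c ^ 2 + 1)) / 2,
        (p 7 * (c ^ 2 - 1) - p 1 * (c ^ 2 + 1)) / 2, 0],
      singPt ?_ ?_ ?_ ?_ ?_ ?_ ?_ ?_ ?_ ?_ ?_ ?_ ?_, ?_, ?_⟩
    · rw [e2]
      linear_combination (2 * e * w + (c - 1)) / 4 * hw'
    · rw [e1, hβ, h7]
      linear_combination (p 1 * (c + 1) - p 7 * (2 * e * w + (c - 1)) / 2) * hw'
    · rw [e1, hβ, h7]
      linear_combination (p 1 * (c + 1) + p 7 * (2 * e * w + (c - 1)) / 2) * hw'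
    · rw [hv]
      ring
    · exact ne_of_coord 1 one_ne_zero
    · intro h8
      have a1 : (p 7 * (c ^ 2 - 1) + p 1 * (c ^ 2 + 1)) / 2 = 0 := congrFun h8 1
      have a2 : (p 7 * (c ^ 2 - 1) - p 1 * (c ^ 2 + 1)) / 2 = 0 := congrFun h8 2
      have a3 : p 1 * (c ^ 2 + 1) = 0 := by linear_combination a1 - a2
      rcases mul_eq_zero.1 a3 with h | h
      · exact hc2 h
      · exact hPe c hc h
    · rw [e1, h7]
      linear_combination (2 * p 7 * (c ^ 2 - 1) * p 1) * hw'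
    · ring
    · ring
    · rw [e1, e2, hβ, h7]
      linear_combination (-4 * p 1 * p 7 * c * e - 2 * p 7 * e * p 1 * (c ^ 2 + 1)) * hw'
    · ring
    · ring
    · ring
    · exact one_ne_zero
    · change c = c * 1
      rw [mul_one]

/-- the last case: a point of corank two -/
theorem iso_g5b (H : IsoPol (vU p)) (cm : p 0 * p 3 ≠ p 1 * p 2) (hn : p 4 = 0) (hm : p 3 ≠ 0)
    (h3 : p 6 = -(p 8 * p 5) → p 0 ≠ 0 ∧ p 8 ≠ 0) (hγ : p 7 = 0) (hβ : p 6 = -(p 8 * p 5))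
    (h1 : p 2 ^ 2 = 16 * p 8 * p 3 ^ 2)
    (h2 : (p 0 ^ 2 + 16 * p 8 * p 1 ^ 2 + 4 * p 8 * p 5 ^ 2) * p 3 = 2 * p 0 * p 1 * p 2) :
    False := by
  obtain ⟨e, he⟩ : ∃ e, e = p 2 / (4 * p 3) := ⟨_, rfl⟩
  have e1 : p 2 = 4 * p 3 * e := by
    rw [he]
    field_simp
  have e2 : p 8 = e ^ 2 := by
    rw [e1] at h1
    have h4 : 16 * p 3 ^ 2 * (p 8 - e ^ 2) = 0 := by linear_combination -h1
    exact sub_eq_zero.1 ((mul_eq_zero.1 h4).resolve_left
      (mul_ne_zero (by norm_num) (pow_ne_zero 2 hm)))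
  have he0 : e ≠ 0 := by
    rintro rfl
    apply (h3 hβ).2
    rw [e2]
    ring
  have h4 : (p 0 - 4 * e * p 1) ^ 2 = -(4 * e ^ 2 * p 5 ^ 2) := by
    apply mul_left_cancel₀ hm
    rw [e1, e2] at h2
    linear_combination h2
  have hα : p 5 ≠ 0 := by
    intro h5
    rw [h5] at h4
    have h6 : p 0 - 4 * e * p 1 = 0 := pow_eq_zero_iff two_ne_zero |>.1 (by rw [h4]; ring)
    apply cm
    rw [e1]
    linear_combination p 3 * h6
  obtain ⟨J, hJ⟩ : ∃ J, J = (p 0 - 4 * e * p 1) / (2 * e * p 5) := ⟨_, rfl⟩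
  have j1 : p 0 = 4 * e * p 1 + 2 * e * p 5 * J := by
    rw [hJ]
    field_simp
    ring
  have j2 : J ^ 2 = -1 := by
    rw [j1] at h4
    have h5 : 4 * e ^ 2 * p 5 ^ 2 * (J ^ 2 + 1) = 0 := by linear_combination h4
    have h6 := (mul_eq_zero.1 h5).resolve_left
      (mul_ne_zero (mul_ne_zero (by norm_num) (pow_ne_zero 2 he0)) (pow_ne_zero 2 hα))
    linear_combination h6
  rw [e2] at hβ
  refine not_all (H.finl 1 3) (P := 1) one_ne_zero fun c _ => ?_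
  obtain ⟨w, hw⟩ : ∃ w, w = (J - 1) / (2 * e) := ⟨_, rfl⟩
  have hw' : 2 * e * w = J - 1 := by
    rw [hw]
    field_simp
  obtain ⟨s, hs⟩ := exists_sq (-2 * p 5 * J)
  refine ⟨![(J + 1) / 2, 1, J, w, 0, s, 0], ![2 * J * (c * p 1 + p 3), c, 0, 1],
    singPt ?_ ?_ ?_ ?_ ?_ ?_ ?_ ?_ ?_ ?_ ?_ ?_ ?_, ?_, ?_⟩
  · rw [e2]
    linear_combination (2 * e * w + (J - 1)) / 4 * hw'
  · rw [j1, hβ, hγ]
    linear_combination ((2 * p 1 + p 5 * J) * (J + 1) / 2 -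
      p 5 * (2 * e * w + (J - 1)) / 4) * hw' + (p 5 * J / 2) * j2
  · rw [j1, hβ, hγ, hs]
    linear_combination ((2 * p 1 + p 5 * J) * (J + 1) / 2 +
      p 5 * (2 * e * w + (J - 1)) / 4) * hw' + (p 5 * J / 2) * j2
  · rw [e1, hn]
    linear_combination (p 3 * (J + 1)) * hw'
  · exact ne_of_coord 1 one_ne_zero
  · exact ne_of_coord 3 one_ne_zero
  · rw [e1, j1]
    linear_combination (2 * p 3 + c * (2 * p 1 + p 5 * J)) * hw' +
      (c * p 5 - 2 * (c * p 1 + p 3)) * j2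
  · rw [hγ]
    linear_combination (2 * (c * p 1 + p 3)) * j2
  · rw [hγ]
    ring
  · rw [e1, e2, j1, hβ]
    linear_combination (2 * J * (c * p 1 + p 3) * e - c * p 5 * e) * hw' +
      (2 * e * (c * p 1 + p 3) + c * p 5 * e) * j2
  · rw [hn]
    ring
  · ring
  · ring
  · exact one_ne_zero
  · change c = c * 1
    rw [mul_one]

theorem exc_ne {c1 c2 m1 m2 n g : ℂ} (cm : c1 * m2 ≠ c2 * m1) (cg : c2 ≠ 0 ∨ g ≠ 0)
    (hn : n ≠ 0) :
    (Polynomial.X * (Polynomial.C c1 * (Polynomial.X ^ 2 + Polynomial.C (n ^ 2)) -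
      Polynomial.C m1 * Polynomial.X) *
      (Polynomial.C (g ^ 2) * (Polynomial.X ^ 2 - Polynomial.C (n ^ 2)) ^ 2 -
        (Polynomial.C c2 * (Polynomial.X ^ 2 + Polynomial.C (n ^ 2)) -
          Polynomial.C m2 * Polynomial.X) ^ 2) : Polynomial ℂ) ≠ 0 := by
  refine mul_ne_zero (mul_ne_zero Polynomial.X_ne_zero ?_) ?_
  · intro h0
    have h1 := fun t : ℂ => congrArg (fun f : Polynomial ℂ => f.eval t) h0
    simp only [Polynomial.eval_sub, Polynomial.eval_mul, Polynomial.eval_add, Polynomial.eval_C,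
      Polynomial.eval_pow, Polynomial.eval_X, Polynomial.eval_zero] at h1
    have e0 := h1 0
    have e1 := h1 1
    have e2 : c1 = 0 := by
      have h2 : n ^ 2 * c1 = 0 := by linear_combination e0
      exact (mul_eq_zero.1 h2).resolve_left (pow_ne_zero 2 hn)
    apply cm
    rw [e2] at e1 ⊢
    have e3 : m1 = 0 := by linear_combination -e1
    rw [e3]
    ring
  · intro h0
    have h1 := fun t : ℂ => congrArg (fun f : Polynomial ℂ => f.eval t) h0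
    simp only [Polynomial.eval_sub, Polynomial.eval_mul, Polynomial.eval_add, Polynomial.eval_C,
      Polynomial.eval_pow, Polynomial.eval_X, Polynomial.eval_zero] at h1
    have e0 := h1 n
    have e1 := h1 (-n)
    have e2 := h1 0
    have f0 : 2 * n * c2 - m2 = 0 := by
      have h2 : n ^ 2 * (2 * n * c2 - m2) ^ 2 = 0 := by linear_combination -e0
      exact pow_eq_zero_iff two_ne_zero |>.1 ((mul_eq_zero.1 h2).resolve_left (pow_ne_zero 2 hn))
    have f1 : 2 * n * c2 + m2 = 0 := by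
      have h2 : n ^ 2 * (2 * n * c2 + m2) ^ 2 = 0 := by linear_combination -e1
      exact pow_eq_zero_iff two_ne_zero |>.1 ((mul_eq_zero.1 h2).resolve_left (pow_ne_zero 2 hn))
    have f2 : c2 = 0 := by
      have h2 : n * c2 = 0 := by linear_combination (f0 + f1) / 4
      exact (mul_eq_zero.1 h2).resolve_left hn
    rw [f2] at e2
    have f3 : g = 0 := by
      have h2 : n ^ 4 * g ^ 2 = 0 := by linear_combination e2
      exact pow_eq_zero_iff two_ne_zero |>.1 ((mul_eq_zero.1 h2).resolve_left (pow_ne_zero 4 hn))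
    rcases cg with h | h
    · exact h f2
    · exact h f3

/-- the third case: a singular point on the general curve -/
theorem iso_g4c (H : IsoPol (vU p)) (cm : p 0 * p 3 ≠ p 1 * p 2) (cg : p 1 ≠ 0 ∨ p 7 ≠ 0)
    (hn : p 4 ≠ 0) (hβ : p 6 = p 8 * p 5)
    (h1 : p 0 ^ 2 - 16 * p 8 * p 1 ^ 2 = 4 * p 8 * (p 5 ^ 2 - 4 * p 7 ^ 2))
    (h2 : p 0 * p 2 = 16 * p 8 * (p 1 * p 3))
    (h3 : p 2 ^ 2 - 16 * p 8 * p 3 ^ 2 = -4 * p 4 ^ 2 * (p 0 ^ 2 - 16 * p 8 * p 1 ^ 2)) :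
    False := by
  have cm' : p 0 * -p 3 ≠ p 1 * -p 2 := by
    intro h
    apply cm
    linear_combination -h
  refine not_all (H.finl 1 3) (exc_ne cm' cg hn) fun c hc => ?_
  simp only [Polynomial.eval_sub, Polynomial.eval_mul, Polynomial.eval_add, Polynomial.eval_C,
    Polynomial.eval_pow, Polynomial.eval_X] at hc
  obtain ⟨hc', hc3⟩ := mul_ne_zero_iff.1 hc
  obtain ⟨hc1, hc2⟩ := mul_ne_zero_iff.1 hc'
  -- the parameters of the curve
  obtain ⟨μ, hμ⟩ := exists_sq (-c)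
  have hμ0 : μ ≠ 0 := by
    rintro rfl
    apply hc1
    linear_combination hμ
  obtain ⟨ν, hν⟩ : ∃ ν, ν = p 4 / μ := ⟨_, rfl⟩
  have hmn : μ * ν = p 4 := by
    rw [hν]
    field_simp
  obtain ⟨S, hS⟩ : ∃ S, S = μ ^ 2 + ν ^ 2 := ⟨_, rfl⟩
  obtain ⟨D, hD⟩ : ∃ D, D = μ ^ 2 - ν ^ 2 := ⟨_, rfl⟩
  have hSD : S ^ 2 - D ^ 2 = 4 * p 4 ^ 2 := by
    rw [hS, hD, ← hmn]
    ring
  have hμS : μ ^ 2 * S = c ^ 2 + p 4 ^ 2 := by
    rw [hS, ← hmn]
    linear_combination (μ ^ 2 - c) * hμ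
  have hμD : μ ^ 2 * D = c ^ 2 - p 4 ^ 2 := by
    rw [hD, ← hmn]
    linear_combination (μ ^ 2 - c) * hμ
  have hb : S * p 0 - p 2 ≠ 0 := by
    intro h
    apply hc2
    linear_combination μ ^ 2 * h - p 0 * hμS + p 2 * hμ
  obtain ⟨l, hl⟩ := exists_sq (4 * (D ^ 2 * p 7 ^ 2 - (S * p 1 - p 3) ^ 2))
  have hl0 : l ≠ 0 := by
    rintro rfl
    apply hc3
    have h5 : D ^ 2 * p 7 ^ 2 - (S * p 1 - p 3) ^ 2 = 0 := by linear_combination -hl / 4
    linear_combination μ ^ 4 * h5 - p 7 ^ 2 * (μ ^ 2 * D + (c ^ 2 - p 4 ^ 2)) * hμD +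
      (p 1 * (μ ^ 2 * S) - p 3 * μ ^ 2 + (p 1 * (c ^ 2 + p 4 ^ 2) + p 3 * c)) *
        (p 1 * hμS - p 3 * hμ)
  obtain ⟨x₀, y₀, hne', f1, f2⟩ := exists_ker2 (a := S * p 1 - p 3 + D * p 7) (b := -l)
    (c := -(S * p 1 - p 3) + D * p 7) (by linear_combination hl)
  obtain ⟨h₀, w₀, hne, f3, f4⟩ := exists_ker2 (a := D * p 5 + l) (b := S * p 0 - p 2)
    (c := p 8 * (D * p 5 - l)) (by
      linear_combination D ^ 2 * h1 - 2 * S * h2 + h3 + 4 * p 8 * hl +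
        (p 0 ^ 2 - 16 * p 8 * p 1 ^ 2) * hSD)
  obtain ⟨u, z, huz, f5⟩ := exists_yz (x₀ * y₀) (h₀ ^ 2 - p 8 * w₀ ^ 2)
  obtain ⟨x, hx⟩ : ∃ x, x = x₀ * u := ⟨_, rfl⟩
  obtain ⟨y, hy⟩ : ∃ y, y = y₀ * u := ⟨_, rfl⟩
  obtain ⟨h, hh⟩ : ∃ h, h = h₀ * z := ⟨_, rfl⟩
  obtain ⟨w, hw⟩ : ∃ w, w = w₀ * z := ⟨_, rfl⟩
  have g1 : 2 * (S * p 1 - p 3 + D * p 7) * x + -l * y = 0 := by
    rw [hx, hy]
    linear_combination u * f1
  have g2 : -l * x + 2 * (-(S * p 1 - p 3) + D * p 7) * y = 0 := by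
    rw [hx, hy]
    linear_combination u * f2
  have g3 : 2 * (D * p 5 + l) * h + (S * p 0 - p 2) * w = 0 := by
    rw [hh, hw]
    linear_combination z * f3
  have g4 : (S * p 0 - p 2) * h + 2 * (p 8 * (D * p 5 - l)) * w = 0 := by
    rw [hh, hw]
    linear_combination z * f4
  have q : x * y - h ^ 2 + p 8 * w ^ 2 = 0 := by
    rw [hx, hy, hh, hw]
    linear_combination f5
  have hne2 : x ≠ 0 ∨ y ≠ 0 ∨ h ≠ 0 ∨ w ≠ 0 := by
    rw [hx, hy, hh, hw]
    rcases huz with g | g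
    · rcases hne' with g' | g'
      · exact Or.inl (mul_ne_zero g' g)
      · exact Or.inr (Or.inl (mul_ne_zero g' g))
    · rcases hne with g' | g'
      · exact Or.inr (Or.inr (Or.inl (mul_ne_zero g' g)))
      · exact Or.inr (Or.inr (Or.inr (mul_ne_zero g' g)))
  -- the derivative in the direction of the parameter
  have N : D * (p 0 * (h * w) + p 1 * (x ^ 2 - y ^ 2)) +
      S * (p 5 * h ^ 2 + p 8 * p 5 * w ^ 2 + p 7 * (x ^ 2 + y ^ 2)) = 0 := by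
    obtain ⟨E, hE⟩ : ∃ E, E = S * (p 1 ^ 2 - p 7 ^ 2) - p 1 * p 3 := ⟨_, rfl⟩
    apply (mul_eq_zero.1 (?_ : (l * (S * p 0 - p 2)) * _ = 0)).resolve_left (mul_ne_zero hl0 hb)
    linear_combination (-(S * p 0 - p 2) * (D * p 1 + S * p 7) * x) * g2 -
      ((S * p 0 - p 2) * (-(D * p 1) + S * p 7) * y) * g1 +
      (l * S * p 5 * h - 4 * D * (S * (p 1 ^ 2 - p 7 ^ 2) - p 1 * p 3) * h) * g4 +
      (l * S * p 8 * p 5 * w + 4 * D * (S * (p 1 ^ 2 - p 7 ^ 2) - p 1 * p 3) * p 8 * w) * g3 -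
      4 * D * (S * (p 1 ^ 2 - p 7 ^ 2) - p 1 * p 3) * (S * p 0 - p 2) * q +
      l * h * w * D * (S * h1 - h2)
  have F1 : S * (p 0 * (h * w) + p 1 * (x ^ 2 - y ^ 2)) +
      D * (p 5 * h ^ 2 + p 8 * p 5 * w ^ 2 + p 7 * (x ^ 2 + y ^ 2)) -
      (p 2 * (h * w) + p 3 * (x ^ 2 - y ^ 2)) = 0 := by
    linear_combination (x * g1 + y * g2 + h * g3 + w * g4) / 2 + l * q
  obtain ⟨T, hT⟩ : ∃ T, T = p 0 * (h * w) + p 1 * (x ^ 2 - y ^ 2) := ⟨_, rfl⟩
  obtain ⟨A, hA⟩ : ∃ A, A = p 5 * h ^ 2 + p 8 * p 5 * w ^ 2 + p 7 * (x ^ 2 + y ^ 2) := ⟨_, rfl⟩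
  obtain ⟨r, hr⟩ := exists_sq (T + A)
  obtain ⟨s, hs, hrs⟩ : ∃ s, s ^ 2 = T - A ∧ μ * r + ν * s = 0 := by
    obtain ⟨s, hs⟩ := exists_sq (T - A)
    have h5 : (μ * r - ν * s) * (μ * r + ν * s) = 0 := by
      rw [← hT, ← hA, hD, hS] at N
      linear_combination μ ^ 2 * hr - ν ^ 2 * hs + N
    rcases mul_eq_zero.1 h5 with h6 | h6
    · exact ⟨-s, by rw [neg_sq, hs], by linear_combination h6⟩
    · exact ⟨s, hs, h6⟩
  rw [← hT, ← hA] at F1
  refine ⟨![h, x, y, w, r, s, 0], ![-l, μ ^ 2, ν ^ 2, -1],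
    singPt ?_ ?_ ?_ ?_ ?_ ?_ ?_ ?_ ?_ ?_ ?_ ?_ ?_, ?_, ?_⟩
  · exact q
  · rw [hr, hT, hA, hβ]
    ring
  · rw [hs, hT, hA, hβ]
    ring
  · rw [← hmn]
    rw [hS, hD] at F1
    linear_combination -F1 - μ ^ 2 * hr - ν ^ 2 * hs + (μ * r + ν * s) * hrs
  · rcases hne2 with g | g | g | g
    · exact ne_of_coord 1 g
    · exact ne_of_coord 2 g
    · exact ne_of_coord 0 g
    · exact ne_of_coord 3 g
  · exact ne_of_coord 3 (neg_ne_zero.2 one_ne_zero)
  · rw [hS, hD] at g3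
    linear_combination g3
  · rw [hS, hD] at g1
    linear_combination g1
  · rw [hS, hD] at g2
    linear_combination g2
  · rw [hS, hD] at g4
    rw [hβ]
    linear_combination g4
  · rw [← hmn]
    linear_combination -2 * μ * hrs
  · rw [← hmn]
    linear_combination -2 * ν * hrs
  · ring
  · exact neg_ne_zero.2 one_ne_zero
  · change μ ^ 2 = c * -1
    rw [hμ]
    ring

/-- **The conditions on the parameters.** -/
theorem good_of_iso (H : IsoPol (vU p)) (hF : FreeU p) : Good p := by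
  refine ⟨hF.cm, hF.cg, hF.g3, fun hβ => ⟨fun h => iso_g4a H hF.g3 hβ h.1 h.2,
    fun h => iso_g4b H hF.cm hF.g3 hβ h.1 h.2, fun h => ?_⟩,
    fun hn => ⟨fun h => hF.g5 hn h.1, fun h => iso_g5b H hF.cm hn (hF.g5 hn) hF.g3 h.1 h.2.1
      h.2.2.1 h.2.2.2⟩⟩
  by_cases hn : p 4 = 0
  · have hm := hF.g5 hn
    obtain ⟨-, h2, h3⟩ := h
    rw [hn] at h3
    have h4 : p 2 * (p 0 * p 3 - p 1 * p 2) = 0 := by
      linear_combination p 3 * h2 - p 1 * h3
    have h5 := (mul_eq_zero.1 h4).resolve_right (sub_ne_zero.2 hF.cm)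
    have h6 : p 8 * p 3 ^ 2 = 0 := by
      rw [h5] at h3
      linear_combination -h3 / 16
    have h7 := (mul_eq_zero.1 h6).resolve_right (pow_ne_zero 2 hm)
    exact (hF.g3 (by rw [hβ, h7]; ring)).2 h7
  · exact iso_g4c H hF.cm hF.cg hn hβ h.1 h.2.1 h.2.2

end Vale.Agent.P297.C8U
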