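import Vale.Agent.P297.H10.V3.SemiQ
import Mathlib.Analysis.Complex.Basic

/-!
Semi-invariant quadratic forms for the group `ℤ/4 × ℤ/2`.
-/

open MvPolynomial

namespace Vale.Agent.P297.C8V

/-- The quadratic forms for the group `ℤ/4 × ℤ/2`. -/
structure Form42 (u : Fin 4 → Fin 5 → ℂ) (F : Fin 4 → MvPolynomial (Fin 7) ℂ) : Prop where
  f0 : F 0 = C (u 0 0) * (X 6 * X 6) + C (u 0 1) * (X 4 * X 4) + C (u 0 2) * (X 5 * X 5) +
    C (u 0 3) * (X 0 * X 1) + C (u 0 4) * (X 2 * X 3)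
  f1 : F 1 = C (u 1 0) * (X 6 * X 6) + C (u 1 1) * (X 4 * X 4) + C (u 1 2) * (X 5 * X 5) +
    C (u 1 3) * (X 0 * X 1) + C (u 1 4) * (X 2 * X 3)
  f2 : F 2 = C (u 2 0) * (X 0 * X 0) + C (u 2 1) * (X 1 * X 1) + C (u 2 2) * (X 2 * X 2) +
    C (u 2 3) * (X 3 * X 3) + C (u 2 4) * (X 4 * X 5)
  f3 : F 3 = C (u 3 0) * (X 0 * X 0) + C (u 3 1) * (X 1 * X 1) + C (u 3 2) * (X 2 * X 2) +
    C (u 3 3) * (X 3 * X 3) + C (u 3 4) * (X 4 * X 5)

theorem I_pow_ne {m n : ℕ} (h : m % 4 ≠ n % 4) : Complex.I ^ m ≠ Complex.I ^ n := by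
  have h1 : ∀ n : ℕ, Complex.I ^ n = Complex.I ^ (n % 4) := fun n => by
    conv_lhs => rw [← Nat.div_add_mod n 4, pow_add, pow_mul, Complex.I_pow_four, one_pow, one_mul]
  rw [h1 m, h1 n]
  have hm : m % 4 < 4 := Nat.mod_lt _ (by norm_num)
  have hn : n % 4 < 4 := Nat.mod_lt _ (by norm_num)
  generalize m % 4 = a at *
  generalize n % 4 = b at *
  have h2 : Complex.I ^ 2 = -1 := Complex.I_sq
  have h3 : Complex.I ^ 3 = -Complex.I := by linear_combination Complex.I * h2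
  have k1 : Complex.I ≠ 1 := fun h => by
    have := congrArg Complex.re h
    simp at this
  have k2 : Complex.I ≠ -1 := fun h => by
    have := congrArg Complex.re h
    simp at this
  have k3 : Complex.I ≠ -Complex.I := fun h => by
    have := congrArg Complex.im h
    norm_num at this
  have k4 : -Complex.I ≠ 1 := fun h => by
    have := congrArg Complex.re h
    simp at this
  have k5 : -Complex.I ≠ -1 := fun h => k1 (neg_injective h)
  have k6 : (1 : ℂ) ≠ -1 := by norm_num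
  interval_cases a <;> interval_cases b <;>
    first
      | exact absurd rfl h
      | (simp only [pow_zero, pow_one, h2, h3]
         first
           | exact k1
           | exact k1.symm
           | exact k2
           | exact k2.symm
           | exact k3
           | exact k3.symm
           | exact k4
           | exact k4.symm
           | exact k5
           | exact k5.symm
           | exact k6
           | exact k6.symm)

theorem exists_form42 {F : Fin 4 → MvPolynomial (Fin 7) ℂ}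
    (h1 : Semi ![Complex.I, -Complex.I, Complex.I, -Complex.I, 1, -1, -1] id ![1, 1, -1, -1] F)
    (h2 : Semi ![1, 1, -1, -1, -1, -1, 1] id ![1, 1, 1, 1] F) :
    ∃ u : Fin 4 → Fin 5 → ℂ, Form42 u F := by
  obtain ⟨b, hb, hF, hr⟩ := h1.diag
  have hr' := h2.coeff_of (fun _ => rfl) hb hF
  have hc : ∀ j : Fin 7, (![Complex.I, -Complex.I, Complex.I, -Complex.I, 1, -1, -1] :
      Fin 7 → ℂ) j = Complex.I ^ ((![1, 3, 1, 3, 0, 2, 2] : Fin 7 → ℕ) j) := by
    have h3 : Complex.I ^ 3 = -Complex.I := by linear_combination Complex.I * Complex.I_sq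
    intro j
    fin_cases j
    · exact (pow_one _).symm
    · exact h3.symm
    · exact (pow_one _).symm
    · exact h3.symm
    · exact (pow_zero _).symm
    · exact Complex.I_sq.symm
    · exact Complex.I_sq.symm
  have hχ : ∀ k : Fin 4, (![1, 1, -1, -1] : Fin 4 → ℂ) k =
      Complex.I ^ ((![0, 0, 2, 2] : Fin 4 → ℕ) k) := by
    intro k
    fin_cases k
    · exact (pow_zero _).symm
    · exact (pow_zero _).symm
    · exact Complex.I_sq.symm
    · exact Complex.I_sq.symm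
  have hc' : ∀ j : Fin 7, (![1, 1, -1, -1, -1, -1, 1] : Fin 7 → ℂ) j =
      Complex.I ^ ((![0, 0, 2, 2, 2, 2, 0] : Fin 7 → ℕ) j) := by
    intro j
    fin_cases j
    · exact (pow_zero _).symm
    · exact (pow_zero _).symm
    · exact Complex.I_sq.symm
    · exact Complex.I_sq.symm
    · exact Complex.I_sq.symm
    · exact Complex.I_sq.symm
    · exact (pow_zero _).symm
  have hχ' : ∀ k : Fin 4, (![1, 1, 1, 1] : Fin 4 → ℂ) k = Complex.I ^ 0 := by
    intro k
    fin_cases k <;> exact (pow_zero _).symm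
  have hz : ∀ (k : Fin 4) (i j : Fin 7), ((![1, 3, 1, 3, 0, 2, 2] : Fin 7 → ℕ) i +
      (![1, 3, 1, 3, 0, 2, 2] : Fin 7 → ℕ) j) % 4 ≠ ((![0, 0, 2, 2] : Fin 4 → ℕ) k) % 4 ∨
      ((![0, 0, 2, 2, 2, 2, 0] : Fin 7 → ℕ) i + (![0, 0, 2, 2, 2, 2, 0] : Fin 7 → ℕ) j) % 4 ≠
        0 % 4 → b k i j = 0 := by
    intro k i j hne
    by_contra h0
    rcases hne with hne | hne
    · have h1 := hr k i j
      rw [hc i, hc j, hχ k, ← pow_add] at h1
      exact I_pow_ne hne (mul_right_cancel₀ h0 h1)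
    · have h1 := hr' k i j
      rw [hc' i, hc' j, hχ' k, ← pow_add] at h1
      exact I_pow_ne hne (mul_right_cancel₀ h0 h1)
  refine ⟨![![b 0 6 6, b 0 4 4, b 0 5 5, 2 * b 0 0 1, 2 * b 0 2 3],
    ![b 1 6 6, b 1 4 4, b 1 5 5, 2 * b 1 0 1, 2 * b 1 2 3],
    ![b 2 0 0, b 2 1 1, b 2 2 2, b 2 3 3, 2 * b 2 4 5],
    ![b 3 0 0, b 3 1 1, b 3 2 2, b 3 3 3, 2 * b 3 4 5]], ?_, ?_, ?_, ?_⟩
  · rw [hF 0]
    simp only [Fin.sum_univ_seven, hz 0 0 0 (by decide), hz 0 0 2 (by decide), hz 0 0 3 (by decide), hz 0 0 4 (by decide), hz 0 0 5 (by decide), hz 0 0 6 (by decide), hz 0 1 1 (by decide), hz 0 1 2 (by decide), hz 0 1 3 (by decide), hz 0 1 4 (by decide), hz 0 1 5 (by decide), hz 0 1 6 (by decide), hz 0 2 0 (by decide), hz 0 2 1 (by decide), hz 0 2 2 (by decide), hz 0 2 4 (by decide), hz 0 2 5 (by decide), hz 0 2 6 (by decide), hz 0 3 0 (by decide), hz 0 3 1 (by decide), hz 0 3 3 (by decide), hz 0 3 4 (by decide), hz 0 3 5 (by decide),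 hz 0 3 6 (by decide), hz 0 4 0 (by decide), hz 0 4 1 (by decide), hz 0 4 2 (by decide), hz 0 4 3 (by decide), hz 0 4 5 (by decide), hz 0 4 6 (by decide), hz 0 5 0 (by decide), hz 0 5 1 (by decide), hz 0 5 2 (by decide), hz 0 5 3 (by decide), hz 0 5 4 (by decide), hz 0 5 6 (by decide), hz 0 6 0 (by decide), hz 0 6 1 (by decide), hz 0 6 2 (by decide), hz 0 6 3 (by decide), hz 0 6 4 (by decide), hz 0 6 5 (by decide), map_zero, zero_mul, add_zero, zero_add]
    rw [hb 0 1 0, hb 0 3 2]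
    have h2 : (C 2 : MvPolynomial (Fin 7) ℂ) = 2 := map_ofNat C 2
    change _ = C (b 0 6 6) * (X 6 * X 6) + C (b 0 4 4) * (X 4 * X 4) + C (b 0 5 5) * (X 5 * X 5) +
      C (2 * b 0 0 1) * (X 0 * X 1) + C (2 * b 0 2 3) * (X 2 * X 3)
    simp only [map_mul, h2]
    ring
  · rw [hF 1]
    simp only [Fin.sum_univ_seven, hz 1 0 0 (by decide), hz 1 0 2 (by decide), hz 1 0 3 (by decide), hz 1 0 4 (by decide), hz 1 0 5 (by decide), hz 1 0 6 (by decide), hz 1 1 1 (by decide), hz 1 1 2 (by decide), hz 1 1 3 (by decide), hz 1 1 4 (by decide), hz 1 1 5 (by decide), hz 1 1 6 (by decide), hz 1 2 0 (by decide), hz 1 2 1 (by decide), hz 1 2 2 (by decide), hz 1 2 4 (by decide), hz 1 2 5 (by decide), hz 1 2 6 (by decide), hz 1 3 0 (by decide), hz 1 3 1 (by decide), hz 1 3 3 (by decide), hz 1 3 4 (by decide), hz 1 3 5 (by decide), hz 1 3 6 (by decide), hz 1 4 0 (by decide), hz 1 4 1 (by decide), hz 1 4 2 (by decide), hz 1 4 3 (by decide), hz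 1 4 5 (by decide), hz 1 4 6 (by decide), hz 1 5 0 (by decide), hz 1 5 1 (by decide), hz 1 5 2 (by decide), hz 1 5 3 (by decide), hz 1 5 4 (by decide), hz 1 5 6 (by decide), hz 1 6 0 (by decide), hz 1 6 1 (by decide), hz 1 6 2 (by decide), hz 1 6 3 (by decide), hz 1 6 4 (by decide), hz 1 6 5 (by decide), map_zero, zero_mul, add_zero, zero_add]
    rw [hb 1 1 0, hb 1 3 2]
    have h2 : (C 2 : MvPolynomial (Fin 7) ℂ) = 2 := map_ofNat C 2
    change _ = C (b 1 6 6) * (X 6 * X 6) + C (b 1 4 4) * (X 4 * X 4) + C (b 1 5 5) * (X 5 * X 5) +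
      C (2 * b 1 0 1) * (X 0 * X 1) + C (2 * b 1 2 3) * (X 2 * X 3)
    simp only [map_mul, h2]
    ring
  · rw [hF 2]
    simp only [Fin.sum_univ_seven, hz 2 0 1 (by decide), hz 2 0 2 (by decide), hz 2 0 3 (by decide), hz 2 0 4 (by decide), hz 2 0 5 (by decide), hz 2 0 6 (by decide), hz 2 1 0 (by decide), hz 2 1 2 (by decide), hz 2 1 3 (by decide), hz 2 1 4 (by decide), hz 2 1 5 (by decide), hz 2 1 6 (by decide), hz 2 2 0 (by decide), hz 2 2 1 (by decide), hz 2 2 3 (by decide), hz 2 2 4 (by decide), hz 2 2 5 (by decide), hz 2 2 6 (by decide), hz 2 3 0 (by decide), hz 2 3 1 (by decide), hz 2 3 2 (by decide), hz 2 3 4 (by decide), hz 2 3 5 (by decide), hz 2 3 6 (by decide), hz 2 4 0 (by decide), hz 2 4 1 (by decide), hz 2 4 2 (by decide), hz 2 4 3 (by decide), hz 2 4 4 (by decide), hz 2 4 6 (by decide), hz 2 5 0 (by decide), hz 2 5 1 (by decide), hz 2 5 2 (by decide), hz 2 5 3 (by decide), hz 2 5 5 (by decide), hz 2 5 6 (by decide),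 hz 2 6 0 (by decide), hz 2 6 1 (by decide), hz 2 6 2 (by decide), hz 2 6 3 (by decide), hz 2 6 4 (by decide), hz 2 6 5 (by decide), hz 2 6 6 (by decide), map_zero, zero_mul, add_zero, zero_add]
    rw [hb 2 5 4]
    have h2 : (C 2 : MvPolynomial (Fin 7) ℂ) = 2 := map_ofNat C 2
    change _ = C (b 2 0 0) * (X 0 * X 0) + C (b 2 1 1) * (X 1 * X 1) + C (b 2 2 2) * (X 2 * X 2) +
      C (b 2 3 3) * (X 3 * X 3) + C (2 * b 2 4 5) * (X 4 * X 5)
    simp only [map_mul, h2]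
    ring
  · rw [hF 3]
    simp only [Fin.sum_univ_seven, hz 3 0 1 (by decide), hz 3 0 2 (by decide), hz 3 0 3 (by decide), hz 3 0 4 (by decide), hz 3 0 5 (by decide), hz 3 0 6 (by decide), hz 3 1 0 (by decide), hz 3 1 2 (by decide), hz 3 1 3 (by decide), hz 3 1 4 (by decide), hz 3 1 5 (by decide), hz 3 1 6 (by decide), hz 3 2 0 (by decide), hz 3 2 1 (by decide), hz 3 2 3 (by decide), hz 3 2 4 (by decide), hz 3 2 5 (by decide), hz 3 2 6 (by decide), hz 3 3 0 (by decide), hz 3 3 1 (by decide), hz 3 3 2 (by decide), hz 3 3 4 (by decide), hz 3 3 5 (by decide), hz 3 3 6 (by decide), hz 3 4 0 (by decide), hz 3 4 1 (by decide), hz 3 4 2 (by decide), hz 3 4 3 (by decide), hz 3 4 4 (by decide), hz 3 4 6 (by decide), hz 3 5 0 (by decide), hz 3 5 1 (by decide), hz 3 5 2 (by decide), hz 3 5 3 (by decide), hz 3 5 5 (by decide), hz 3 5 6 (by decide), hz 3 6 0 (by decide), hz 3 6 1 (by decide), hz 3 6 2 (by decide), hz 3 6 3 (by decide),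 hz 3 6 4 (by decide), hz 3 6 5 (by decide), hz 3 6 6 (by decide), map_zero, zero_mul, add_zero, zero_add]
    rw [hb 3 5 4]
    have h2 : (C 2 : MvPolynomial (Fin 7) ℂ) = 2 := map_ofNat C 2
    change _ = C (b 3 0 0) * (X 0 * X 0) + C (b 3 1 1) * (X 1 * X 1) + C (b 3 2 2) * (X 2 * X 2) +
      C (b 3 3 3) * (X 3 * X 3) + C (2 * b 3 4 5) * (X 4 * X 5)
    simp only [map_mul, h2]
    ring

end Vale.Agent.P297.C8V
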