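import Vale.Agent.P297.H600.C8Defs

/-!
Generic points of an intersection of quadrics, and the degree of its function field.
-/

open MvPolynomial

namespace Vale.Agent.P297.C8U

/-- The point `t` is a generic point of the projective variety `F = 0`. -/
def GenPt {m : ℕ} {E : Type} [Field E] [Algebra ℂ E] (F : Fin m → MvPolynomial (Fin 7) ℂ)
    (t : Fin 7 → E) : Prop :=
  ∀ (n : ℕ) (Φ : MvPolynomial (Fin 7) ℂ), Φ.IsHomogeneous n → aeval t Φ = 0 →
    ∀ (Ω : Type) [Field Ω] [Algebra ℂ Ω] (z : Fin 7 → Ω), (∀ i, aeval z (F i) = 0) →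
      aeval z Φ = 0

/-- Homogenization. -/
theorem exists_homog (Ψ : MvPolynomial (Fin 7) ℂ) :
    ∃ (n : ℕ) (Φ : MvPolynomial (Fin 7) ℂ), Φ.IsHomogeneous n ∧
      ∀ (R : Type) [CommRing R] [Algebra ℂ R] (z : Fin 7 → R), z 0 = 1 →
        aeval z Φ = aeval z Ψ := by
  refine ⟨Ψ.totalDegree, ∑ k ∈ Finset.range (Ψ.totalDegree + 1),
    X 0 ^ (Ψ.totalDegree - k) * homogeneousComponent k Ψ, ?_, ?_⟩
  · refine IsHomogeneous.sum _ _ _ fun k hk => ?_
    have h1 : k ≤ Ψ.totalDegree := by
      rw [Finset.mem_range] at hk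
      omega
    have h2 := ((isHomogeneous_X ℂ (0 : Fin 7)).pow (Ψ.totalDegree - k)).mul
      (homogeneousComponent_isHomogeneous k Ψ)
    have h3 : 1 * (Ψ.totalDegree - k) + k = Ψ.totalDegree := by omega
    rwa [h3] at h2
  · intro R _ _ z hz
    rw [map_sum]
    conv_rhs => rw [← sum_homogeneousComponent Ψ, map_sum]
    refine Finset.sum_congr rfl fun k _ => ?_
    rw [map_mul, map_pow, aeval_X, hz, one_pow, one_mul]

theorem GenPt.affine {m : ℕ} {E : Type} [Field E] [Algebra ℂ E]
    {F : Fin m → MvPolynomial (Fin 7) ℂ} {t : Fin 7 → E} (h : GenPt F t) (h0 : t 0 = 1)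
    (Ψ : MvPolynomial (Fin 7) ℂ) (hΨ : aeval t Ψ = 0) (Ω : Type) [Field Ω] [Algebra ℂ Ω]
    (z : Fin 7 → Ω) (hz0 : z 0 = 1) (hz : ∀ i, aeval z (F i) = 0) : aeval z Ψ = 0 := by
  obtain ⟨n, Φ, h1, h2⟩ := exists_homog Ψ
  rw [← h2 Ω z hz0]
  refine h n Φ h1 ?_ Ω z hz
  rw [h2 E t h0, hΨ]

section

variable {E : Type} [Field E] [Algebra ℂ E]

/-- One quadratic step. -/
theorem finrank_step {A B : IntermediateField ℂ E} {θ : E} (h2 : θ ^ 2 ∈ A) (hθ : θ ∉ A)
    (hA : A ≤ B) (hB : θ ∈ B) (hle : ∀ C : IntermediateField ℂ E, A ≤ C → θ ∈ C → B ≤ C) :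
    Module.finrank A E = 2 * Module.finrank B E := by
  have hint : IsIntegral A θ := by
    refine ⟨Polynomial.X ^ 2 - Polynomial.C (⟨θ ^ 2, h2⟩ : A), Polynomial.monic_X_pow_sub_C _
      two_ne_zero, ?_⟩
    rw [Polynomial.eval₂_sub, Polynomial.eval₂_pow, Polynomial.eval₂_X, Polynomial.eval₂_C]
    exact sub_self _
  have hdeg : (minpoly A θ).natDegree = 2 := by
    apply le_antisymm
    · have h3 : minpoly A θ ∣ Polynomial.X ^ 2 - Polynomial.C (⟨θ ^ 2, h2⟩ : A) := by
        apply minpoly.dvd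
        rw [map_sub, map_pow, Polynomial.aeval_X, Polynomial.aeval_C]
        exact sub_self _
      have h4 := Polynomial.natDegree_le_of_dvd h3
        (Polynomial.Monic.ne_zero (Polynomial.monic_X_pow_sub_C _ two_ne_zero))
      rwa [Polynomial.natDegree_X_pow_sub_C] at h4
    · have h3 := minpoly.natDegree_pos hint
      have h4 : (minpoly A θ).natDegree ≠ 1 := by
        intro h5
        obtain ⟨a, ha⟩ := minpoly.natDegree_eq_one_iff.1 h5
        apply hθ
        rw [← ha]
        exact a.2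
      omega
  have h3 : Module.finrank A (IntermediateField.adjoin A {θ}) = 2 := by
    rw [IntermediateField.adjoin.finrank hint, hdeg]
  have h4 := Module.finrank_mul_finrank A (IntermediateField.adjoin A {θ}) E
  have h5 : (IntermediateField.adjoin A {θ}).restrictScalars ℂ = B := by
    apply le_antisymm
    · intro z hz
      have h6 : IntermediateField.adjoin A {θ} ≤ IntermediateField.extendScalars hA := by
        rw [IntermediateField.adjoin_le_iff]
        rintro _ rfl
        exact hB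
      exact h6 hz
    · refine hle _ ?_ ?_
      · intro z hz
        rw [IntermediateField.mem_restrictScalars]
        have h7 : algebraMap A E ⟨z, hz⟩ = z := rfl
        rw [← h7]
        exact IntermediateField.algebraMap_mem (IntermediateField.adjoin A {θ}) (⟨z, hz⟩ : A)
      · rw [IntermediateField.mem_restrictScalars]
        exact IntermediateField.subset_adjoin _ _ rfl
  rw [h3] at h4
  rw [← h4, ← h5]
  rfl

end

end Vale.Agent.P297.C8U
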