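import Vale.Agent.P297.H10.V3.Tr
import Vale.Agent.P297.H600.V3.Form42
import Vale.Agent.P297.H600.C8LinkU

/-!
The normal form for the group `ℤ/4 × ℤ/2`.
-/

open MvPolynomial

namespace Vale.Agent.P297.C8V

open Vale.Agent.P297.C8U (P42)

variable {u : Fin 4 → Fin 5 → ℂ} {F : Fin 4 → MvPolynomial (Fin 7) ℂ}

theorem Form42.ev (h : Form42 u F) (z : Fin 7 → ℂ) :
    eval z (F 0) = u 0 0 * z 6 ^ 2 + u 0 1 * z 4 ^ 2 + u 0 2 * z 5 ^ 2 + u 0 3 * (z 0 * z 1) +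
      u 0 4 * (z 2 * z 3) ∧
    eval z (F 1) = u 1 0 * z 6 ^ 2 + u 1 1 * z 4 ^ 2 + u 1 2 * z 5 ^ 2 + u 1 3 * (z 0 * z 1) +
      u 1 4 * (z 2 * z 3) ∧
    eval z (F 2) = u 2 0 * z 0 ^ 2 + u 2 1 * z 1 ^ 2 + u 2 2 * z 2 ^ 2 + u 2 3 * z 3 ^ 2 +
      u 2 4 * (z 4 * z 5) ∧
    eval z (F 3) = u 3 0 * z 0 ^ 2 + u 3 1 * z 1 ^ 2 + u 3 2 * z 2 ^ 2 + u 3 3 * z 3 ^ 2 +
      u 3 4 * (z 4 * z 5) := by
  refine ⟨?_, ?_, ?_, ?_⟩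
  · rw [h.f0]
    simp only [map_add, map_mul, eval_C, eval_X]
    ring
  · rw [h.f1]
    simp only [map_add, map_mul, eval_C, eval_X]
    ring
  · rw [h.f2]
    simp only [map_add, map_mul, eval_C, eval_X]
    ring
  · rw [h.f3]
    simp only [map_add, map_mul, eval_C, eval_X]
    ring

theorem Form42.zero_of (h : Form42 u F) {z : Fin 7 → ℂ}
    (h0 : u 0 0 * z 6 ^ 2 + u 0 1 * z 4 ^ 2 + u 0 2 * z 5 ^ 2 + u 0 3 * (z 0 * z 1) +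
      u 0 4 * (z 2 * z 3) = 0)
    (h1 : u 1 0 * z 6 ^ 2 + u 1 1 * z 4 ^ 2 + u 1 2 * z 5 ^ 2 + u 1 3 * (z 0 * z 1) +
      u 1 4 * (z 2 * z 3) = 0)
    (h2 : u 2 0 * z 0 ^ 2 + u 2 1 * z 1 ^ 2 + u 2 2 * z 2 ^ 2 + u 2 3 * z 3 ^ 2 +
      u 2 4 * (z 4 * z 5) = 0)
    (h3 : u 3 0 * z 0 ^ 2 + u 3 1 * z 1 ^ 2 + u 3 2 * z 2 ^ 2 + u 3 3 * z 3 ^ 2 +
      u 3 4 * (z 4 * z 5) = 0) (k : Fin 4) : eval z (F k) = 0 := by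
  obtain ⟨e0, e1, e2, e3⟩ := h.ev z
  fin_cases k
  · exact e0.trans h0
  · exact e1.trans h1
  · exact e2.trans h2
  · exact e3.trans h3

/-- the minors of the first two forms -/
def eu (u : Fin 4 → Fin 5 → ℂ) (j : Fin 5) : ℂ := u 1 0 * u 0 j - u 0 0 * u 1 j

/-- the minors of the last two forms -/
def du (u : Fin 4 → Fin 5 → ℂ) (j : Fin 5) : ℂ := u 3 4 * u 2 j - u 2 4 * u 3 j

theorem exists_ker {a b c d : ℂ} (h : c * b - a * d = 0) :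
    ∃ s t : ℂ, (s ≠ 0 ∨ t ≠ 0) ∧ a * s + b * t = 0 ∧ c * s + d * t = 0 := by
  by_cases h1 : a = 0 ∧ b = 0
  · by_cases h2 : c = 0 ∧ d = 0
    · exact ⟨1, 0, Or.inl one_ne_zero, by rw [h1.1]; ring, by rw [h2.1]; ring⟩
    · refine ⟨d, -c, ?_, by rw [h1.1, h1.2]; ring, by ring⟩
      by_contra hcon
      push Not at hcon
      exact h2 ⟨neg_eq_zero.1 hcon.2, hcon.1⟩
  · refine ⟨b, -a, ?_, by ring, by linear_combination h⟩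
    by_contra hcon
    push Not at hcon
    exact h1 ⟨neg_eq_zero.1 hcon.2, hcon.1⟩

theorem Form42.ne (h : Form42 u F) (hf : Free ![-1, -1, -1, -1, 1, 1, 1] F) :
    eu u 1 ≠ 0 ∧ eu u 2 ≠ 0 ∧ (u 2 4 ≠ 0 ∨ u 3 4 ≠ 0) := by
  have key : ∀ a b c : ℂ, u 0 0 * c ^ 2 + u 0 1 * a ^ 2 + u 0 2 * b ^ 2 = 0 →
      u 1 0 * c ^ 2 + u 1 1 * a ^ 2 + u 1 2 * b ^ 2 = 0 → u 2 4 * (a * b) = 0 →
      u 3 4 * (a * b) = 0 → a = 0 ∧ b = 0 ∧ c = 0 := by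
    intro a b c h0 h1 h2 h3
    by_contra hne
    obtain ⟨i, hi⟩ := hf ![0, 0, 0, 0, a, b, c] 1 (by
      intro h4
      apply hne
      exact ⟨congrFun h4 4, congrFun h4 5, congrFun h4 6⟩) (by
      intro j
      fin_cases j
      · change (-1 : ℂ) * 0 = 1 * 0
        ring
      · change (-1 : ℂ) * 0 = 1 * 0
        ring
      · change (-1 : ℂ) * 0 = 1 * 0
        ring
      · change (-1 : ℂ) * 0 = 1 * 0
        ring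
      · rfl
      · rfl
      · rfl)
    apply hi
    refine h.zero_of ?_ ?_ ?_ ?_ i
    · change u 0 0 * c ^ 2 + u 0 1 * a ^ 2 + u 0 2 * b ^ 2 + u 0 3 * ((0 : ℂ) * 0) +
        u 0 4 * ((0 : ℂ) * 0) = 0
      linear_combination h0
    · change u 1 0 * c ^ 2 + u 1 1 * a ^ 2 + u 1 2 * b ^ 2 + u 1 3 * ((0 : ℂ) * 0) +
        u 1 4 * ((0 : ℂ) * 0) = 0
      linear_combination h1
    · change u 2 0 * (0 : ℂ) ^ 2 + u 2 1 * (0 : ℂ) ^ 2 + u 2 2 * (0 : ℂ) ^ 2 +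
        u 2 3 * (0 : ℂ) ^ 2 + u 2 4 * (a * b) = 0
      linear_combination h2
    · change u 3 0 * (0 : ℂ) ^ 2 + u 3 1 * (0 : ℂ) ^ 2 + u 3 2 * (0 : ℂ) ^ 2 +
        u 3 3 * (0 : ℂ) ^ 2 + u 3 4 * (a * b) = 0
      linear_combination h3
  have sq : ∀ s : ℂ, ∃ a : ℂ, a ^ 2 = s := fun s =>
    IsAlgClosed.exists_pow_nat_eq s (n := 2) (by norm_num)
  have h1 : eu u 1 ≠ 0 := by
    intro h0
    obtain ⟨s, t, hst, e1, e2⟩ := exists_ker (a := u 0 0) (b := u 0 1) (c := u 1 0)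
      (d := u 1 1) h0
    obtain ⟨c, hc⟩ := sq s
    obtain ⟨a, ha⟩ := sq t
    obtain ⟨k1, -, k3⟩ := key a 0 c (by rw [hc, ha]; linear_combination e1)
      (by rw [hc, ha]; linear_combination e2) (by ring) (by ring)
    rcases hst with g | g
    · apply g
      rw [← hc, k3]
      ring
    · apply g
      rw [← ha, k1]
      ring
  have h2 : eu u 2 ≠ 0 := by
    intro h0
    obtain ⟨s, t, hst, e1, e2⟩ := exists_ker (a := u 0 0) (b := u 0 2) (c := u 1 0)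
      (d := u 1 2) h0
    obtain ⟨c, hc⟩ := sq s
    obtain ⟨b, hb⟩ := sq t
    obtain ⟨-, k2, k3⟩ := key 0 b c (by rw [hc, hb]; linear_combination e1)
      (by rw [hc, hb]; linear_combination e2) (by ring) (by ring)
    rcases hst with g | g
    · apply g
      rw [← hc, k3]
      ring
    · apply g
      rw [← hb, k2]
      ring
  refine ⟨h1, h2, ?_⟩
  by_contra hcon
  push Not at hcon
  obtain ⟨c, hc⟩ := sq (u 0 1 * u 1 2 - u 0 2 * u 1 1)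
  obtain ⟨a, ha⟩ := sq (u 0 2 * u 1 0 - u 0 0 * u 1 2)
  obtain ⟨b, hb⟩ := sq (u 0 0 * u 1 1 - u 0 1 * u 1 0)
  obtain ⟨-, k2, -⟩ := key a b c (by rw [hc, ha, hb]; ring) (by rw [hc, ha, hb]; ring)
    (by rw [hcon.1]; ring) (by rw [hcon.2]; ring)
  apply h1
  unfold eu
  rw [k2] at hb
  linear_combination hb

/-- Points with given first coordinates. -/
theorem Form42.exists_pt (h : Form42 u F) (h1 : eu u 1 ≠ 0) (h2 : eu u 2 ≠ 0)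
    (h4 : u 2 4 ≠ 0 ∨ u 3 4 ≠ 0) {x₀ x₁ x₂ x₃ : ℂ}
    (hx : du u 0 * x₀ ^ 2 + du u 1 * x₁ ^ 2 + du u 2 * x₂ ^ 2 + du u 3 * x₃ ^ 2 = 0) :
    ∃ a b c : ℂ, ∀ k, eval ![x₀, x₁, x₂, x₃, a, b, c] (F k) = 0 := by
  have sq : ∀ s : ℂ, ∃ a : ℂ, a ^ 2 = s := fun s =>
    IsAlgClosed.exists_pow_nat_eq s (n := 2) (by norm_num)
  have pr : ∀ s t : ℂ, s ≠ 0 ∨ t ≠ 0 → ∃ a b : ℂ, a * s + b * t = 1 := by
    rintro s t (h | h)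
    · exact ⟨s⁻¹, 0, by rw [inv_mul_cancel₀ h]; ring⟩
    · exact ⟨0, t⁻¹, by rw [inv_mul_cancel₀ h]; ring⟩
  obtain ⟨ν, ν', hν⟩ := pr _ _ h4
  obtain ⟨ρ, ρ', hρ⟩ := pr (u 0 0) (u 1 0) (by
    by_contra hcon
    push Not at hcon
    apply h1
    unfold eu
    rw [hcon.1, hcon.2]
    ring)
  obtain ⟨k4, hk4⟩ := sq (eu u 1)
  obtain ⟨k5, hk5⟩ := sq (eu u 2)
  have k40 : k4 ≠ 0 := by
    rintro rfl
    exact h1 (by rw [← hk4]; ring)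
  have k50 : k5 ≠ 0 := by
    rintro rfl
    exact h2 (by rw [← hk5]; ring)
  obtain ⟨S2, hS2⟩ : ∃ S2, S2 = u 2 0 * x₀ ^ 2 + u 2 1 * x₁ ^ 2 + u 2 2 * x₂ ^ 2 +
    u 2 3 * x₃ ^ 2 := ⟨_, rfl⟩
  obtain ⟨S3, hS3⟩ : ∃ S3, S3 = u 3 0 * x₀ ^ 2 + u 3 1 * x₁ ^ 2 + u 3 2 * x₂ ^ 2 +
    u 3 3 * x₃ ^ 2 := ⟨_, rfl⟩
  have hx' : u 3 4 * S2 - u 2 4 * S3 = 0 := by
    rw [hS2, hS3]
    unfold du at hx
    linear_combination hx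
  obtain ⟨q1, hq1⟩ : ∃ q1, q1 = -(ν * S2 + ν' * S3) := ⟨_, rfl⟩
  obtain ⟨q2, hq2⟩ : ∃ q2, q2 = -(eu u 3 * (x₀ * x₁) + eu u 4 * (x₂ * x₃)) := ⟨_, rfl⟩
  obtain ⟨s, hs⟩ := sq (q2 + 2 * (k4 * k5) * q1)
  obtain ⟨t, ht⟩ := sq (q2 - 2 * (k4 * k5) * q1)
  obtain ⟨a, ha⟩ : ∃ a, 2 * k4 * a = s + t := ⟨(s + t) / (2 * k4), by field_simp⟩
  obtain ⟨b, hb⟩ : ∃ b, 2 * k5 * b = s - t := ⟨(s - t) / (2 * k5), by field_simp⟩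
  have hab : a * b = q1 := by
    apply mul_left_cancel₀ (mul_ne_zero k40 k50)
    linear_combination (k5 * b) / 2 * ha + (s + t) / 4 * hb + hs / 4 - ht / 4
  have hab2 : eu u 1 * a ^ 2 + eu u 2 * b ^ 2 = q2 := by
    rw [← hk4, ← hk5]
    linear_combination (2 * k4 * a + (s + t)) / 4 * ha + (2 * k5 * b + (s - t)) / 4 * hb +
      hs / 2 + ht / 2
  obtain ⟨G0, hG0⟩ : ∃ G0, G0 = u 0 1 * a ^ 2 + u 0 2 * b ^ 2 + u 0 3 * (x₀ * x₁) +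
    u 0 4 * (x₂ * x₃) := ⟨_, rfl⟩
  obtain ⟨G1, hG1⟩ : ∃ G1, G1 = u 1 1 * a ^ 2 + u 1 2 * b ^ 2 + u 1 3 * (x₀ * x₁) +
    u 1 4 * (x₂ * x₃) := ⟨_, rfl⟩
  have hG : u 1 0 * G0 - u 0 0 * G1 = 0 := by
    rw [hG0, hG1]
    rw [hq2] at hab2
    unfold eu at hab2
    linear_combination hab2
  obtain ⟨c, hc⟩ := sq (-(ρ * G0 + ρ' * G1))
  refine ⟨a, b, c, h.zero_of ?_ ?_ ?_ ?_⟩
  · change u 0 0 * c ^ 2 + u 0 1 * a ^ 2 + u 0 2 * b ^ 2 + u 0 3 * (x₀ * x₁) +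
      u 0 4 * (x₂ * x₃) = 0
    linear_combination u 0 0 * hc - hG0 - G0 * hρ + ρ' * hG
  · change u 1 0 * c ^ 2 + u 1 1 * a ^ 2 + u 1 2 * b ^ 2 + u 1 3 * (x₀ * x₁) +
      u 1 4 * (x₂ * x₃) = 0
    linear_combination u 1 0 * hc - hG1 - G1 * hρ - ρ * hG
  · change u 2 0 * x₀ ^ 2 + u 2 1 * x₁ ^ 2 + u 2 2 * x₂ ^ 2 + u 2 3 * x₃ ^ 2 +
      u 2 4 * (a * b) = 0
    rw [hab, hq1]
    linear_combination -hS2 - S2 * hν + ν' * hx'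
  · change u 3 0 * x₀ ^ 2 + u 3 1 * x₁ ^ 2 + u 3 2 * x₂ ^ 2 + u 3 3 * x₃ ^ 2 +
      u 3 4 * (a * b) = 0
    rw [hab, hq1]
    linear_combination -hS3 - S3 * hν - ν * hx'

end Vale.Agent.P297.C8V
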