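import Vale.Agent.P297.H600.V3.Norm42
import Vale.Agent.P297.H600.V3.IsoGood
import Vale.Agent.P297.H600.V3.Deg
import Vale.Agent.P297.H600.C8Main
import Vale.Agent.P297.H10.V3.Nss

/-!
The group `ℤ/4 × ℤ/2`: the main case.
-/

set_option linter.unusedSimpArgs false

open MvPolynomial

namespace Vale.Agent.P297.C8V

open Vale.Agent.P297.C8U (P42 vU FreeU IsoPol NoZero GenPt)

section

variable {p : Fin 9 → ℂ} {u : Fin 4 → Fin 5 → ℂ} {F : Fin 4 → MvPolynomial (Fin 7) ℂ}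

theorem f42_P42 (p : Fin 9 → ℂ) : C8U.F42 p (P42 p) := by
  have h : C8U.F42 p ![C8U.q 1 1 2 - C8U.q 1 0 0 + C8U.q (p 8) 3 3,
      C8U.q (p 0) 0 3 + (C8U.q (p 1) 1 1 - C8U.q (p 1) 2 2) +
      (C8U.q (p 5) 0 0 + C8U.q (p 6) 3 3 + (C8U.q (p 7) 1 1 + C8U.q (p 7) 2 2)) - C8U.q 1 4 4,
      C8U.q (p 0) 0 3 + (C8U.q (p 1) 1 1 - C8U.q (p 1) 2 2) -
      (C8U.q (p 5) 0 0 + C8U.q (p 6) 3 3 + (C8U.q (p 7) 1 1 + C8U.q (p 7) 2 2)) - C8U.q 1 5 5,
      C8U.q (p 2) 0 3 + (C8U.q (p 3) 1 1 - C8U.q (p 3) 2 2) + C8U.q (2 * p 4) 4 5 -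
        C8U.q 1 6 6] := ⟨rfl, rfl, rfl, rfl⟩
  have h1 := h.eq
  rw [h1] at h
  exact h

theorem isoPol_of (h : Iso (P42 p)) : IsoPol (vU p) := by
  obtain ⟨Z, hZ⟩ := h
  refine ⟨Z, fun z l h1 h2 h3 h4 => hZ z l (fun i => ?_) h2 h3 (fun j => ?_)⟩
  · rw [← aeval_eq_eval, C8U.aeval_vU]
    exact h1 i
  · have h5 := h4 (Pi.single j 1)
    rw [Fin.sum_univ_four] at h5 ⊢
    fin_cases j
    · simp [vU, P42, pderiv_X, C8U.pderiv_two'] at h5 ⊢
      linear_combination h5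
    · simp [vU, P42, pderiv_X, C8U.pderiv_two'] at h5 ⊢
      linear_combination h5
    · simp [vU, P42, pderiv_X, C8U.pderiv_two'] at h5 ⊢
      linear_combination h5
    · simp [vU, P42, pderiv_X, C8U.pderiv_two'] at h5 ⊢
      linear_combination h5
    · simp [vU, P42, pderiv_X, C8U.pderiv_two'] at h5 ⊢
      linear_combination h5
    · simp [vU, P42, pderiv_X, C8U.pderiv_two'] at h5 ⊢
      linear_combination h5
    · simp [vU, P42, pderiv_X, C8U.pderiv_two'] at h5 ⊢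
      rcases h5 with h5 | h5
      · exact Or.inl h5
      · exact Or.inr (by linear_combination -h5 / 2)

theorem noZero_of {k2 k3 k4 k5 : ℂ} {R R' : Matrix (Fin 4) (Fin 4) ℂ}
    (hL : Link F (P42 p) (L42 k2 k3 k4 k5) (M42 k2 k3 k4 k5) R R') {c : Fin 7 → ℂ}
    (hf : Free c F) (a : ℂ) (A : Finset (Fin 7))
    (hA : ∀ z : Fin 7 → ℂ, (∀ j ∈ A, z j = 0) → ∀ j, c j ≠ a →
      (![z 0, z 3, k2⁻¹ * z 1 + k2⁻¹ * z 2, k3⁻¹ * z 1 - k3⁻¹ * z 2, k4⁻¹ * z 4 - k4⁻¹ * z 5,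
        k5⁻¹ * z 4 + k5⁻¹ * z 5, z 6] : Fin 7 → ℂ) j = 0) : NoZero (vU p) A := by
  intro z h0 hz
  by_contra hne
  have hz' : ∀ i, eval z (P42 p i) = 0 := fun i => by
    rw [← aeval_eq_eval, C8U.aeval_vU]
    exact hz i
  have h1 := hL.zero' hz'
  have h2 : (fun i => eval z (M42 k2 k3 k4 k5 i)) ≠ 0 := by
    intro h3
    apply hne
    funext j
    rw [← hL.pt z j, h3]
    have := eval_smul' (hL.hL j) 0 0
    rw [zero_smul] at this
    rw [this]
    simp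
  obtain ⟨i, hi⟩ := hf.coord a h2 fun j hj => by
    have := hA z h0 j hj
    rw [← M42_eval] at this
    exact this
  exact hi (h1 i)

theorem freeU_of {k2 k3 k4 k5 : ℂ} {R R' : Matrix (Fin 4) (Fin 4) ℂ}
    (hL : Link F (P42 p) (L42 k2 k3 k4 k5) (M42 k2 k3 k4 k5) R R')
    (hf1 : Free ![-1, -1, -1, -1, 1, 1, 1] F) (hf2 : Free ![1, 1, -1, -1, -1, -1, 1] F)
    (hf3 : Free ![-1, -1, 1, 1, -1, -1, 1] F) : FreeU p where
  f1 := noZero_of hL hf1 (-1) _ (by
    intro z hz j hj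
    have h4 := hz 4 (by simp)
    have h5 := hz 5 (by simp)
    have h6 := hz 6 (by simp)
    fin_cases j
    · exact absurd rfl hj
    · exact absurd rfl hj
    · exact absurd rfl hj
    · exact absurd rfl hj
    · change k4⁻¹ * z 4 - k4⁻¹ * z 5 = 0
      rw [h4, h5]
      ring
    · change k5⁻¹ * z 4 + k5⁻¹ * z 5 = 0
      rw [h4, h5]
      ring
    · exact h6)
  f2 := noZero_of hL hf2 1 _ (by
    intro z hz j hj
    have h1 := hz 1 (by simp)
    have h2 := hz 2 (by simp)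
    have h4 := hz 4 (by simp)
    have h5 := hz 5 (by simp)
    fin_cases j
    · exact absurd rfl hj
    · exact absurd rfl hj
    · change k2⁻¹ * z 1 + k2⁻¹ * z 2 = 0
      rw [h1, h2]
      ring
    · change k3⁻¹ * z 1 - k3⁻¹ * z 2 = 0
      rw [h1, h2]
      ring
    · change k4⁻¹ * z 4 - k4⁻¹ * z 5 = 0
      rw [h4, h5]
      ring
    · change k5⁻¹ * z 4 + k5⁻¹ * z 5 = 0
      rw [h4, h5]
      ring
    · exact absurd rfl hj)
  f3 := noZero_of hL hf2 (-1) _ (by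
    intro z hz j hj
    have h0 := hz 0 (by simp)
    have h3 := hz 3 (by simp)
    have h6 := hz 6 (by simp)
    fin_cases j
    · exact h0
    · exact h3
    · exact absurd rfl hj
    · exact absurd rfl hj
    · exact absurd rfl hj
    · exact absurd rfl hj
    · exact h6)
  f4 := noZero_of hL hf3 1 _ (by
    intro z hz j hj
    have h0 := hz 0 (by simp)
    have h3 := hz 3 (by simp)
    have h4 := hz 4 (by simp)
    have h5 := hz 5 (by simp)
    fin_cases j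
    · exact h0
    · exact h3
    · exact absurd rfl hj
    · exact absurd rfl hj
    · change k4⁻¹ * z 4 - k4⁻¹ * z 5 = 0
      rw [h4, h5]
      ring
    · change k5⁻¹ * z 4 + k5⁻¹ * z 5 = 0
      rw [h4, h5]
      ring
    · exact absurd rfl hj)

end

section

variable {E : Type} [Field E] [Algebra ℂ E] {t : Fin 7 → E}
  {u : Fin 4 → Fin 5 → ℂ} {F : Fin 4 → MvPolynomial (Fin 7) ℂ}

/-- The conclusion for the group `ℤ/4 × ℤ/2`. -/
def Concl42 (t : Fin 7 → E) : Prop :=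
  ∃ G₁ G₂ : E ≃ₐ[ℂ] E,
    Acts t ![Complex.I, -Complex.I, Complex.I, -Complex.I, 1, -1, -1] id G₁ ∧
    Acts t ![1, 1, -1, -1, -1, -1, 1] id G₂ ∧ BlochSub (Subgroup.closure {G₁, G₂})

/-- The main case. -/
theorem main42 (hu : Form42 u F) (hf1 : Free ![-1, -1, -1, -1, 1, 1, 1] F)
    (hf2 : Free ![1, 1, -1, -1, -1, -1, 1] F) (hf3 : Free ![-1, -1, 1, 1, -1, -1, 1] F)
    (hi : Iso F) (ht : IsFF F t) (d0 : du u 0 ≠ 0) (d2 : du u 2 ≠ 0) (d3 : du u 3 ≠ 0) :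
    Concl42 t := by
  obtain ⟨h1, h2, h4⟩ := hu.ne hf1
  obtain ⟨p, k2, k3, k4, k5, R, R', k20, k30, k40, k50, hL⟩ := hu.link h1 h2 h4 d0 d2 d3
  have hF := freeU_of hL hf1 hf2 hf3
  have hgood := C8U.good_of_iso (isoPol_of (hL.iso hi)) hF
  have ht' := hL.isFF rfl ht
  have htU : C8U.IsFF (P42 p) fun j => aeval t (L42 k2 k3 k4 k5 j) :=
    ⟨ht'.one, ht'.zero, ht'.top, ht'.trdeg⟩
  have hgen : GenPt (P42 p) fun j => aeval t (L42 k2 k3 k4 k5 j) :=
    fun n Φ hΦ h0 Ω _ _ z hz => ht'.vanish hΦ h0 hz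
  have h8 := C8U.finrank8 hF.cm hF.cg htU hgen
  obtain ⟨G₁, G₂, hG₁, hG₂, hB⟩ := C8U.bloch42 (f42_P42 p) hgood htU h8
  have h0 := ht.one
  have : CharZero E := charZero_of_injective_algebraMap (algebraMap ℂ E).injective
  have hK2 : algebraMap ℂ E k2 ≠ 0 := by
    rwa [Ne, map_eq_zero_iff _ (algebraMap ℂ E).injective]
  have hK3 : algebraMap ℂ E k3 ≠ 0 := by
    rwa [Ne, map_eq_zero_iff _ (algebraMap ℂ E).injective]
  have hK4 : algebraMap ℂ E k4 ≠ 0 := by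
    rwa [Ne, map_eq_zero_iff _ (algebraMap ℂ E).injective]
  have hK5 : algebraMap ℂ E k5 ≠ 0 := by
    rwa [Ne, map_eq_zero_iff _ (algebraMap ℂ E).injective]
  have hI : algebraMap ℂ E Complex.I * algebraMap ℂ E Complex.I = -1 := by
    rw [← map_mul, Complex.I_mul_I, map_neg, map_one]
  rw [L42_ev] at hG₁ hG₂
  have hm1 : ∀ z : E, algebraMap ℂ E (-1) * z = -z := fun z => by
    rw [map_neg, map_one, neg_one_mul]
  have hp1 : ∀ z : E, algebraMap ℂ E 1 * z = z := fun z => by rw [map_one, one_mul]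
  refine ⟨G₁, G₂, ?_, ?_, hB⟩
  · have g1 := hG₁ 1
    have g2 := hG₁ 2
    have g3 := hG₁ 3
    have g4 := hG₁ 4
    have g5 := hG₁ 5
    have g6 := hG₁ 6
    change G₁ (algebraMap ℂ E (k2 / 2) * t 2 + algebraMap ℂ E (k3 / 2) * t 3) * t 0 =
      algebraMap ℂ E 1 * (algebraMap ℂ E (k2 / 2) * t 2 - algebraMap ℂ E (k3 / 2) * t 3) at g1
    change G₁ (algebraMap ℂ E (k2 / 2) * t 2 - algebraMap ℂ E (k3 / 2) * t 3) * t 0 =
      algebraMap ℂ E 1 * (algebraMap ℂ E (k2 / 2) * t 2 + algebraMap ℂ E (k3 / 2) * t 3) at g2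
    change G₁ (t 1) * t 0 = algebraMap ℂ E (-1) * t 1 at g3
    change G₁ (algebraMap ℂ E (k5 / 2) * t 5 + algebraMap ℂ E (k4 / 2) * t 4) * t 0 =
      algebraMap ℂ E Complex.I * (algebraMap ℂ E (k5 / 2) * t 5 -
        algebraMap ℂ E (k4 / 2) * t 4) at g4
    change G₁ (algebraMap ℂ E (k5 / 2) * t 5 - algebraMap ℂ E (k4 / 2) * t 4) * t 0 =
      algebraMap ℂ E Complex.I * (algebraMap ℂ E (k5 / 2) * t 5 +
        algebraMap ℂ E (k4 / 2) * t 4) at g5
    change G₁ (t 6) * t 0 = algebraMap ℂ E Complex.I * t 6 at g6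
    rw [h0, mul_one] at g1 g2 g3 g4 g5 g6
    rw [hp1] at g1 g2
    rw [hm1] at g3
    simp only [map_add, map_sub, map_mul, AlgEquiv.commutes, map_div₀, map_ofNat] at g1 g2 g4 g5
    have e2 : G₁ (t 2) = t 2 := mul_left_cancel₀ hK2 (by linear_combination g1 + g2)
    have e3 : G₁ (t 3) = -t 3 := mul_left_cancel₀ hK3 (by linear_combination g1 - g2)
    have e5 : G₁ (t 5) = algebraMap ℂ E Complex.I * t 5 :=
      mul_left_cancel₀ hK5 (by linear_combination g4 + g5)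
    have e4 : G₁ (t 4) = -(algebraMap ℂ E Complex.I * t 4) :=
      mul_left_cancel₀ hK4 (by linear_combination g4 - g5)
    intro j
    change G₁ (t j) * (algebraMap ℂ E Complex.I * t 0) = _
    rw [h0, mul_one]
    fin_cases j
    · change G₁ (t 0) * algebraMap ℂ E Complex.I = algebraMap ℂ E Complex.I * t 0
      rw [h0, map_one, one_mul, mul_one]
    · change G₁ (t 1) * algebraMap ℂ E Complex.I = algebraMap ℂ E (-Complex.I) * t 1
      rw [g3, map_neg]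
      ring
    · change G₁ (t 2) * algebraMap ℂ E Complex.I = algebraMap ℂ E Complex.I * t 2
      rw [e2]
      ring
    · change G₁ (t 3) * algebraMap ℂ E Complex.I = algebraMap ℂ E (-Complex.I) * t 3
      rw [e3, map_neg]
      ring
    · change G₁ (t 4) * algebraMap ℂ E Complex.I = algebraMap ℂ E 1 * t 4
      rw [e4, hp1]
      linear_combination -t 4 * hI
    · change G₁ (t 5) * algebraMap ℂ E Complex.I = algebraMap ℂ E (-1) * t 5
      rw [e5, hm1]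
      linear_combination t 5 * hI
    · change G₁ (t 6) * algebraMap ℂ E Complex.I = algebraMap ℂ E (-1) * t 6
      rw [g6, hm1]
      linear_combination t 6 * hI
  · have g1 := hG₂ 1
    have g2 := hG₂ 2
    have g3 := hG₂ 3
    have g4 := hG₂ 4
    have g5 := hG₂ 5
    have g6 := hG₂ 6
    change G₂ (algebraMap ℂ E (k2 / 2) * t 2 + algebraMap ℂ E (k3 / 2) * t 3) * t 0 =
      algebraMap ℂ E (-1) * (algebraMap ℂ E (k2 / 2) * t 2 + algebraMap ℂ E (k3 / 2) * t 3) at g1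
    change G₂ (algebraMap ℂ E (k2 / 2) * t 2 - algebraMap ℂ E (k3 / 2) * t 3) * t 0 =
      algebraMap ℂ E (-1) * (algebraMap ℂ E (k2 / 2) * t 2 - algebraMap ℂ E (k3 / 2) * t 3) at g2
    change G₂ (t 1) * t 0 = algebraMap ℂ E 1 * t 1 at g3
    change G₂ (algebraMap ℂ E (k5 / 2) * t 5 + algebraMap ℂ E (k4 / 2) * t 4) * t 0 =
      algebraMap ℂ E (-1) * (algebraMap ℂ E (k5 / 2) * t 5 +
        algebraMap ℂ E (k4 / 2) * t 4) at g4
    change G₂ (algebraMap ℂ E (k5 / 2) * t 5 - algebraMap ℂ E (k4 / 2) * t 4) * t 0 =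
      algebraMap ℂ E (-1) * (algebraMap ℂ E (k5 / 2) * t 5 -
        algebraMap ℂ E (k4 / 2) * t 4) at g5
    change G₂ (t 6) * t 0 = algebraMap ℂ E 1 * t 6 at g6
    rw [h0, mul_one] at g1 g2 g3 g4 g5 g6
    rw [hm1] at g1 g2 g4 g5
    rw [hp1] at g3 g6
    simp only [map_add, map_sub, map_mul, AlgEquiv.commutes, map_div₀, map_ofNat] at g1 g2 g4 g5
    have e2 : G₂ (t 2) = -t 2 := mul_left_cancel₀ hK2 (by linear_combination g1 + g2)
    have e3 : G₂ (t 3) = -t 3 := mul_left_cancel₀ hK3 (by linear_combination g1 - g2)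
    have e5 : G₂ (t 5) = -t 5 := mul_left_cancel₀ hK5 (by linear_combination g4 + g5)
    have e4 : G₂ (t 4) = -t 4 := mul_left_cancel₀ hK4 (by linear_combination g4 - g5)
    intro j
    change G₂ (t j) * (algebraMap ℂ E 1 * t 0) = _
    rw [h0, mul_one, map_one, mul_one]
    fin_cases j
    · change G₂ (t 0) = algebraMap ℂ E 1 * t 0
      rw [hp1, h0, map_one]
    · change G₂ (t 1) = algebraMap ℂ E 1 * t 1
      rw [g3, hp1]
    · change G₂ (t 2) = algebraMap ℂ E (-1) * t 2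
      rw [e2, hm1]
    · change G₂ (t 3) = algebraMap ℂ E (-1) * t 3
      rw [e3, hm1]
    · change G₂ (t 4) = algebraMap ℂ E (-1) * t 4
      rw [e4, hm1]
    · change G₂ (t 5) = algebraMap ℂ E (-1) * t 5
      rw [e5, hm1]
    · change G₂ (t 6) = algebraMap ℂ E 1 * t 6
      rw [g6, hp1]

end

end Vale.Agent.P297.C8V
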