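import Vale.Agent.P297.H600.V3.Link42

/-!
The normal form for the group `ℤ/4 × ℤ/2`: the change of coordinates.
-/

open MvPolynomial

namespace Vale.Agent.P297.C8V

open Vale.Agent.P297.C8U (P42)

variable {u : Fin 4 → Fin 5 → ℂ} {F : Fin 4 → MvPolynomial (Fin 7) ℂ}

/-- the change of coordinates -/
noncomputable def L42 (a b c d : ℂ) : Fin 7 → MvPolynomial (Fin 7) ℂ :=
  ![X 0, C (a / 2) * X 2 + C (b / 2) * X 3, C (a / 2) * X 2 - C (b / 2) * X 3, X 1,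
    C (d / 2) * X 5 + C (c / 2) * X 4, C (d / 2) * X 5 - C (c / 2) * X 4, X 6]

/-- the inverse change of coordinates -/
noncomputable def M42 (a b c d : ℂ) : Fin 7 → MvPolynomial (Fin 7) ℂ :=
  ![X 0, X 3, C a⁻¹ * X 1 + C a⁻¹ * X 2, C b⁻¹ * X 1 - C b⁻¹ * X 2,
    C c⁻¹ * X 4 - C c⁻¹ * X 5, C d⁻¹ * X 4 + C d⁻¹ * X 5, X 6]

theorem homC42 (c : ℂ) (j : Fin 7) : (C c * X j : MvPolynomial (Fin 7) ℂ).IsHomogeneous 1 := by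
  have := (isHomogeneous_C (Fin 7) c).mul (isHomogeneous_X ℂ j)
  rwa [zero_add] at this

theorem L42_hom (a b c d : ℂ) (j : Fin 7) : (L42 a b c d j).IsHomogeneous 1 := by
  fin_cases j
  · exact isHomogeneous_X _ _
  · exact (homC42 _ _).add (homC42 _ _)
  · exact (homC42 _ _).sub (homC42 _ _)
  · exact isHomogeneous_X _ _
  · exact (homC42 _ _).add (homC42 _ _)
  · exact (homC42 _ _).sub (homC42 _ _)
  · exact isHomogeneous_X _ _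

theorem M42_hom (a b c d : ℂ) (j : Fin 7) : (M42 a b c d j).IsHomogeneous 1 := by
  fin_cases j
  · exact isHomogeneous_X _ _
  · exact isHomogeneous_X _ _
  · exact (homC42 _ _).add (homC42 _ _)
  · exact (homC42 _ _).sub (homC42 _ _)
  · exact (homC42 _ _).sub (homC42 _ _)
  · exact (homC42 _ _).add (homC42 _ _)
  · exact isHomogeneous_X _ _

theorem L42_ev {R : Type*} [CommRing R] [Algebra ℂ R] (a b c d : ℂ) (z : Fin 7 → R) :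
    (fun j => aeval z (L42 a b c d j)) = ![z 0,
      algebraMap ℂ R (a / 2) * z 2 + algebraMap ℂ R (b / 2) * z 3,
      algebraMap ℂ R (a / 2) * z 2 - algebraMap ℂ R (b / 2) * z 3, z 1,
      algebraMap ℂ R (d / 2) * z 5 + algebraMap ℂ R (c / 2) * z 4,
      algebraMap ℂ R (d / 2) * z 5 - algebraMap ℂ R (c / 2) * z 4, z 6] := by
  funext j
  fin_cases j <;>
    simp only [L42, map_add, map_sub, map_mul, aeval_X, aeval_C, Fin.zero_eta, Fin.mk_one,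
      Fin.reduceFinMk, Matrix.cons_val, Matrix.cons_val_zero, Matrix.cons_val_one]

theorem M42_ev {R : Type*} [CommRing R] [Algebra ℂ R] (a b c d : ℂ) (z : Fin 7 → R) :
    (fun j => aeval z (M42 a b c d j)) = ![z 0, z 3,
      algebraMap ℂ R a⁻¹ * z 1 + algebraMap ℂ R a⁻¹ * z 2,
      algebraMap ℂ R b⁻¹ * z 1 - algebraMap ℂ R b⁻¹ * z 2,
      algebraMap ℂ R c⁻¹ * z 4 - algebraMap ℂ R c⁻¹ * z 5,
      algebraMap ℂ R d⁻¹ * z 4 + algebraMap ℂ R d⁻¹ * z 5, z 6] := by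
  funext j
  fin_cases j <;>
    simp only [M42, map_add, map_sub, map_mul, aeval_X, aeval_C, Fin.zero_eta, Fin.mk_one,
      Fin.reduceFinMk, Matrix.cons_val, Matrix.cons_val_zero, Matrix.cons_val_one]

theorem L42_eval (a b c d : ℂ) (z : Fin 7 → ℂ) :
    (fun j => eval z (L42 a b c d j)) = ![z 0, a / 2 * z 2 + b / 2 * z 3,
      a / 2 * z 2 - b / 2 * z 3, z 1, d / 2 * z 5 + c / 2 * z 4, d / 2 * z 5 - c / 2 * z 4,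
      z 6] := by
  have h1 := L42_ev a b c d z
  simpa only [aeval_eq_eval, Algebra.algebraMap_self, RingHom.id_apply] using h1

theorem M42_eval (a b c d : ℂ) (z : Fin 7 → ℂ) :
    (fun j => eval z (M42 a b c d j)) = ![z 0, z 3, a⁻¹ * z 1 + a⁻¹ * z 2,
      b⁻¹ * z 1 - b⁻¹ * z 2, c⁻¹ * z 4 - c⁻¹ * z 5, d⁻¹ * z 4 + d⁻¹ * z 5, z 6] := by
  have h1 := M42_ev a b c d z
  simpa only [aeval_eq_eval, Algebra.algebraMap_self, RingHom.id_apply] using h1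

theorem LM42 {a b c d : ℂ} (ha : a ≠ 0) (hb : b ≠ 0) (hc : c ≠ 0) (hd : d ≠ 0) (j : Fin 7) :
    aeval (L42 a b c d) (M42 a b c d j) = X j := by
  refine MvPolynomial.funext fun z => ?_
  rw [eval_comp, eval_X, L42_eval]
  have h2 := congrFun (M42_eval a b c d (![z 0, a / 2 * z 2 + b / 2 * z 3,
      a / 2 * z 2 - b / 2 * z 3, z 1, d / 2 * z 5 + c / 2 * z 4, d / 2 * z 5 - c / 2 * z 4,
      z 6])) j
  rw [h2]
  fin_cases j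
  · rfl
  · rfl
  · change a⁻¹ * (a / 2 * z 2 + b / 2 * z 3) + a⁻¹ * (a / 2 * z 2 - b / 2 * z 3) = z 2
    field_simp
    ring
  · change b⁻¹ * (a / 2 * z 2 + b / 2 * z 3) - b⁻¹ * (a / 2 * z 2 - b / 2 * z 3) = z 3
    field_simp
    ring
  · change c⁻¹ * (d / 2 * z 5 + c / 2 * z 4) - c⁻¹ * (d / 2 * z 5 - c / 2 * z 4) = z 4
    field_simp
    ring
  · change d⁻¹ * (d / 2 * z 5 + c / 2 * z 4) + d⁻¹ * (d / 2 * z 5 - c / 2 * z 4) = z 5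
    field_simp
    ring
  · rfl

theorem ML42 {a b c d : ℂ} (ha : a ≠ 0) (hb : b ≠ 0) (hc : c ≠ 0) (hd : d ≠ 0) (j : Fin 7) :
    aeval (M42 a b c d) (L42 a b c d j) = X j := by
  refine MvPolynomial.funext fun z => ?_
  rw [eval_comp, eval_X, M42_eval]
  have h2 := congrFun (L42_eval a b c d (![z 0, z 3, a⁻¹ * z 1 + a⁻¹ * z 2,
      b⁻¹ * z 1 - b⁻¹ * z 2, c⁻¹ * z 4 - c⁻¹ * z 5, d⁻¹ * z 4 + d⁻¹ * z 5, z 6])) j
  rw [h2]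
  fin_cases j
  · rfl
  · change a / 2 * (a⁻¹ * z 1 + a⁻¹ * z 2) + b / 2 * (b⁻¹ * z 1 - b⁻¹ * z 2) = z 1
    field_simp
    ring
  · change a / 2 * (a⁻¹ * z 1 + a⁻¹ * z 2) - b / 2 * (b⁻¹ * z 1 - b⁻¹ * z 2) = z 2
    field_simp
    ring
  · rfl
  · change d / 2 * (d⁻¹ * z 4 + d⁻¹ * z 5) + c / 2 * (c⁻¹ * z 4 - c⁻¹ * z 5) = z 4
    field_simp
    ring
  · change d / 2 * (d⁻¹ * z 4 + d⁻¹ * z 5) - c / 2 * (c⁻¹ * z 4 - c⁻¹ * z 5) = z 5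
    field_simp
    ring
  · rfl

/-- The normal form. -/
theorem Form42.link (h : Form42 u F) (h1 : eu u 1 ≠ 0) (h2 : eu u 2 ≠ 0)
    (h4 : u 2 4 ≠ 0 ∨ u 3 4 ≠ 0) (d0 : du u 0 ≠ 0) (d2 : du u 2 ≠ 0) (d3 : du u 3 ≠ 0) :
    ∃ (p : Fin 9 → ℂ) (k2 k3 k4 k5 : ℂ) (R R' : Matrix (Fin 4) (Fin 4) ℂ),
      k2 ≠ 0 ∧ k3 ≠ 0 ∧ k4 ≠ 0 ∧ k5 ≠ 0 ∧
      Link F (P42 p) (L42 k2 k3 k4 k5) (M42 k2 k3 k4 k5) R R' := by
  have sq : ∀ s : ℂ, ∃ a : ℂ, a ^ 2 = s := fun s =>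
    IsAlgClosed.exists_pow_nat_eq s (n := 2) (by norm_num)
  have pr : ∀ s t : ℂ, s ≠ 0 ∨ t ≠ 0 → ∃ a b : ℂ, a * s + b * t = 1 := by
    rintro s t (h | h)
    · exact ⟨s⁻¹, 0, by rw [inv_mul_cancel₀ h]; ring⟩
    · exact ⟨0, t⁻¹, by rw [inv_mul_cancel₀ h]; ring⟩
  obtain ⟨ν, ν', hν⟩ := pr _ _ h4
  obtain ⟨ρ, ρ', hρ⟩ := pr (u 0 0) (u 1 0) (by
    by_contra hcon
    push Not at hcon
    apply h1
    unfold eu
    rw [hcon.1, hcon.2]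
    ring)
  obtain ⟨g, hg⟩ : ∃ g, g * du u 0 = -1 := ⟨-1 / du u 0, by field_simp⟩
  have g0 : g ≠ 0 := by
    rintro rfl
    norm_num at hg
  obtain ⟨k2, hk2⟩ := sq (4 * (g * du u 2))
  obtain ⟨k3, hk3⟩ := sq (-(4 * (g * du u 3)))
  obtain ⟨k4, hk4⟩ := sq (eu u 1)
  obtain ⟨k5, hk5⟩ := sq (eu u 2)
  have k20 : k2 ≠ 0 := by
    rintro rfl
    exact mul_ne_zero (by norm_num : (4 : ℂ) ≠ 0) (mul_ne_zero g0 d2) (by rw [← hk2]; ring)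
  have k30 : k3 ≠ 0 := by
    rintro rfl
    exact neg_ne_zero.2 (mul_ne_zero (by norm_num : (4 : ℂ) ≠ 0) (mul_ne_zero g0 d3))
      (by rw [← hk3]; ring)
  have k40 : k4 ≠ 0 := by
    rintro rfl
    exact h1 (by rw [← hk4]; ring)
  have k50 : k5 ≠ 0 := by
    rintro rfl
    exact h2 (by rw [← hk5]; ring)
  obtain ⟨κ, hκ⟩ : ∃ κ, κ * (k4 * k5) = 1 := ⟨(k4 * k5)⁻¹, by field_simp⟩
  obtain ⟨a2, ha2⟩ : ∃ a, a * k2 ^ 2 = -(k4 * k5) * (ν * u 2 2 + ν' * u 3 2) :=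
    ⟨-(k4 * k5) * (ν * u 2 2 + ν' * u 3 2) / k2 ^ 2, by field_simp⟩
  obtain ⟨a3, ha3⟩ : ∃ a, a * k3 ^ 2 = -(k4 * k5) * (ν * u 2 3 + ν' * u 3 3) :=
    ⟨-(k4 * k5) * (ν * u 2 3 + ν' * u 3 3) / k3 ^ 2, by field_simp⟩
  obtain ⟨a4, ha4⟩ : ∃ a, a * eu u 1 = ρ * u 0 1 + ρ' * u 1 1 :=
    ⟨(ρ * u 0 1 + ρ' * u 1 1) / eu u 1, by field_simp⟩
  obtain ⟨a5, ha5⟩ : ∃ a, a * eu u 2 = ρ * u 0 2 + ρ' * u 1 2 :=
    ⟨(ρ * u 0 2 + ρ' * u 1 2) / eu u 2, by field_simp⟩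
  obtain ⟨c2, hc2⟩ : ∃ c, c * (k2 * k3) = -eu u 4 / 4 := ⟨-eu u 4 / 4 / (k2 * k3), by field_simp⟩
  obtain ⟨m2, hm2⟩ : ∃ c, c * (k2 * k3) = -(ρ * u 0 4 + ρ' * u 1 4) +
    (a4 + a5) / 2 * eu u 4 :=
    ⟨(-(ρ * u 0 4 + ρ' * u 1 4) + (a4 + a5) / 2 * eu u 4) / (k2 * k3), by field_simp⟩
  obtain ⟨τ, hτ⟩ : ∃ τ, τ = 2 * (a3 - a2) := ⟨_, rfl⟩
  obtain ⟨τ', hτ'⟩ : ∃ τ', τ' = (a4 + a5) / 2 := ⟨_, rfl⟩
  obtain ⟨N, hN⟩ : ∃ N, N = -(k4 * k5) * ν + τ * g * u 3 4 := ⟨_, rfl⟩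
  obtain ⟨N', hN'⟩ : ∃ N', N' = -(k4 * k5) * ν' - τ * g * u 2 4 := ⟨_, rfl⟩
  refine ⟨![-eu u 3 / 4, c2, -(ρ * u 0 3 + ρ' * u 1 3) + τ' * eu u 3, m2, a4 - a5,
      (-(k4 * k5) * (ν * u 2 0 + ν' * u 3 0) - τ) / 2,
      (-(k4 * k5) * (ν * u 2 1 + ν' * u 3 1) + τ * (g * du u 1)) / 2, (a2 + a3) / 2,
      g * du u 1], k2, k3, k4, k5,
    !![0, 0, g * u 3 4, -(g * u 2 4); -(u 1 0) / 4, u 0 0 / 4, N / 2, N' / 2;
      -(u 1 0) / 4, u 0 0 / 4, -N / 2, -N' / 2; -ρ + τ' * u 1 0, -ρ' - τ' * u 0 0, 0, 0],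
    !![0, -2 * τ' * u 0 0 - 2 * ρ', -2 * τ' * u 0 0 - 2 * ρ', -u 0 0;
      0, -2 * τ' * u 1 0 + 2 * ρ, -2 * τ' * u 1 0 + 2 * ρ, -u 1 0;
      u 2 4 * τ * κ - ν' * du u 0, -(u 2 4 * κ), u 2 4 * κ, 0;
      u 3 4 * τ * κ + ν * du u 0, -(u 3 4 * κ), u 3 4 * κ, 0], k20, k30, k40, k50, ?_⟩
  refine ⟨L42_hom _ _ _ _, M42_hom _ _ _ _, LM42 k20 k30 k40 k50, ML42 k20 k30 k40 k50,
    ?_, ?_⟩
  · intro k
    refine MvPolynomial.funext fun z => ?_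
    rw [eval_comp, L42_eval, Fin.sum_univ_four]
    simp only [map_add, map_mul, eval_C]
    obtain ⟨e0, e1, e2, e3⟩ := h.ev z
    rw [e0, e1, e2, e3]
    unfold eu at hk4 hk5 ha4 ha5 hc2 hm2
    unfold du at hg hk2 hk3
    fin_cases k
    · simp [P42]
      unfold du
      linear_combination z 2 ^ 2 / 4 * hk2 - z 3 ^ 2 / 4 * hk3 - z 0 ^ 2 * hg
    · simp [P42]
      unfold eu du
      rw [hN, hN', hτ]
      linear_combination -(a3 - a2) * z 0 ^ 2 * hg + (k4 * k5 / 2) * z 4 * z 5 * hν -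
        z 4 ^ 2 / 4 * hk4 - z 5 ^ 2 / 4 * hk5 + z 2 * z 3 * hc2 + z 2 ^ 2 / 2 * ha2 +
        (a3 - a2) / 4 * z 2 ^ 2 * hk2 + z 3 ^ 2 / 2 * ha3 - (a3 - a2) / 4 * z 3 ^ 2 * hk3
    · simp [P42]
      unfold eu du
      rw [hN, hN', hτ]
      linear_combination (a3 - a2) * z 0 ^ 2 * hg - (k4 * k5 / 2) * z 4 * z 5 * hν -
        z 4 ^ 2 / 4 * hk4 - z 5 ^ 2 / 4 * hk5 + z 2 * z 3 * hc2 - z 2 ^ 2 / 2 * ha2 -
        (a3 - a2) / 4 * z 2 ^ 2 * hk2 - z 3 ^ 2 / 2 * ha3 + (a3 - a2) / 4 * z 3 ^ 2 * hk3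
    · simp [P42]
      unfold eu
      rw [hτ']
      linear_combination z 6 ^ 2 * hρ - (a4 - a5) / 2 * z 4 ^ 2 * hk4 - z 4 ^ 2 * ha4 +
        (a4 - a5) / 2 * z 5 ^ 2 * hk5 - z 5 ^ 2 * ha5 + z 2 * z 3 * hm2
  · ext k l
    rw [Matrix.mul_apply, Fin.sum_univ_four]
    fin_cases k <;> fin_cases l <;> simp
    · linear_combination (-g * du u 0) * hν - hg
    · ring
    · ring
    · rw [hN, hN']
      linear_combination (-(τ * (ν * u 2 4 + ν' * u 3 4)) / 2) * hκ -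
        (τ * (ν * u 2 4 + ν' * u 3 4) / 2) * hg
    · rw [hN, hN']
      linear_combination hρ / 2 + κ * (k4 * k5) / 2 * hν + hκ / 2
    · rw [hN, hN']
      linear_combination hρ / 2 - κ * (k4 * k5) / 2 * hν - hκ / 2
    · ring
    · rw [hN, hN']
      linear_combination ((τ * (ν * u 2 4 + ν' * u 3 4)) / 2) * hκ +
        (τ * (ν * u 2 4 + ν' * u 3 4) / 2) * hg
    · rw [hN, hN']
      linear_combination hρ / 2 - κ * (k4 * k5) / 2 * hν - hκ / 2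
    · rw [hN, hN']
      linear_combination hρ / 2 + κ * (k4 * k5) / 2 * hν + hκ / 2
    · ring
    · ring
    · ring
    · linear_combination hρ

end Vale.Agent.P297.C8V
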