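import Vale.Agent.P297.H10.V3.Tr

/-!
Permutations of the coordinates.
-/

open MvPolynomial

namespace Vale.Agent.P297.C8V

/-- The system after a permutation of the coordinates. -/
noncomputable def permF (σ : Fin 7 → Fin 7) (F : Fin 4 → MvPolynomial (Fin 7) ℂ) :
    Fin 4 → MvPolynomial (Fin 7) ℂ := fun k => rename σ (F k)

section

variable {E : Type} [Field E] [Algebra ℂ E] {t : Fin 7 → E} {σ : Fin 7 → Fin 7}
  {F : Fin 4 → MvPolynomial (Fin 7) ℂ}

theorem eval_perm (z : Fin 7 → ℂ) (k : Fin 4) : eval z (permF σ F k) = eval (z ∘ σ) (F k) :=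
  eval_rename _ _ _

theorem comp_comp (hσ : ∀ j, σ (σ j) = j) {R : Type*} (z : Fin 7 → R) : (z ∘ σ) ∘ σ = z := by
  funext j
  change z (σ (σ j)) = z j
  rw [hσ]

theorem perm_isFF (hσ : ∀ j, σ (σ j) = j) (ht : IsFF F t) (hom : ∀ k, (F k).IsHomogeneous 2)
    (h0 : t (σ 0) ≠ 0) : IsFF (permF σ F) fun j => (t (σ 0))⁻¹ * t (σ j) where
  one := inv_mul_cancel₀ h0
  zero i := by
    change aeval _ (rename σ (F i)) = 0
    rw [aeval_rename]
    have h1 : (fun j => (t (σ 0))⁻¹ * t (σ j)) ∘ σ = fun j => (t (σ 0))⁻¹ * t j := by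
      funext j
      change (t (σ 0))⁻¹ * t (σ (σ j)) = _
      rw [hσ]
    rw [h1, aeval_smul (hom i), ht.zero, mul_zero]
  gen n P hP h1 z hz := by
    rw [aeval_smul hP (t (σ 0))⁻¹ fun j => t (σ j)] at h1
    have h2 := (mul_eq_zero.1 h1).resolve_left (pow_ne_zero n (inv_ne_zero h0))
    have h3 : aeval t (rename σ P) = 0 := by
      rw [aeval_rename]
      exact h2
    have h4 := ht.gen n (rename σ P) hP.rename_isHomogeneous h3 (z ∘ σ) fun i => by
      rw [← eval_perm]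
      exact hz i
    rw [eval_rename, comp_comp hσ] at h4
    exact h4
  top := by
    rw [← top_le_iff, ← ht.top, IntermediateField.adjoin_le_iff]
    rintro _ ⟨j, rfl⟩
    have h1 : ∀ j, (t (σ 0))⁻¹ * t (σ j) ∈ IntermediateField.adjoin ℂ
        (Set.range fun j => (t (σ 0))⁻¹ * t (σ j)) :=
      fun j => IntermediateField.subset_adjoin _ _ ⟨j, rfl⟩
    have h2 := h1 (σ 0)
    rw [hσ, ht.one, mul_one] at h2
    have h3 := h1 (σ j)
    rw [hσ] at h3
    have h4 := mul_mem (inv_mem h2) h3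
    rw [inv_inv, mul_inv_cancel_left₀ h0] at h4
    exact h4
  trdeg := ht.trdeg

theorem perm_iso (hσ : ∀ j, σ (σ j) = j) (hi : Iso F) : Iso (permF σ F) := by
  classical
  have hinj : Function.Injective σ := fun a b h => by rw [← hσ a, h, hσ]
  obtain ⟨Z, hZ⟩ := hi
  refine ⟨Z.image fun w => (w.1 ∘ σ, w.2), ?_⟩
  intro z l hz hz0 hl0 hl
  obtain ⟨w, hw, a, b, h1, h2⟩ := hZ (z ∘ σ) l (fun i => by rw [← eval_perm]; exact hz i) (by
    intro h0
    apply hz0
    rw [← comp_comp hσ z, h0]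
    rfl) hl0 (by
      intro j
      have h3 := hl (σ j)
      have h4 : ∀ i, eval z (pderiv (σ j) (permF σ F i)) = eval (z ∘ σ) (pderiv j (F i)) := by
        intro i
        change eval z (pderiv (σ j) (rename σ (F i))) = _
        rw [pderiv_rename hinj, eval_rename]
      simpa only [h4] using h3)
  refine ⟨(w.1 ∘ σ, w.2), Finset.mem_image_of_mem _ hw, a, b, ?_, h2⟩
  rw [← comp_comp hσ z, h1]
  rfl

theorem perm_free (hσ : ∀ j, σ (σ j) = j) {c : Fin 7 → ℂ} (hf : Free c F) :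
    Free (c ∘ σ) (permF σ F) := by
  intro z a hz h1
  obtain ⟨i, hi⟩ := hf (z ∘ σ) a (by
    intro h0
    apply hz
    rw [← comp_comp hσ z, h0]
    rfl) (by
      intro j
      have h2 := h1 (σ j)
      change c (σ (σ j)) * z (σ j) = a * z (σ j) at h2
      rw [hσ] at h2
      exact h2)
  exact ⟨i, by rw [eval_perm]; exact hi⟩

theorem perm_acts (hσ : ∀ j, σ (σ j) = j) (h1 : t 0 = 1) (h0 : t (σ 0) ≠ 0) {c : Fin 7 → ℂ}
    {G : E ≃ₐ[ℂ] E} (hG : Acts (fun j => (t (σ 0))⁻¹ * t (σ j)) c id G) :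
    Acts t (c ∘ σ) id G := by
  have h2 : ∀ j, G ((t (σ 0))⁻¹ * t (σ j)) * algebraMap ℂ E (c 0) =
      algebraMap ℂ E (c j) * ((t (σ 0))⁻¹ * t (σ j)) := by
    intro j
    have := hG j
    change G ((t (σ 0))⁻¹ * t (σ j)) * (algebraMap ℂ E (c 0) * ((t (σ 0))⁻¹ * t (σ 0))) =
      algebraMap ℂ E (c j) * ((t (σ 0))⁻¹ * t (σ j)) at this
    rwa [inv_mul_cancel₀ h0, mul_one] at this
  have hg : G (t (σ 0)) ≠ 0 := by
    rw [Ne, map_eq_zero_iff _ G.injective]
    exact h0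
  have h3 := h2 (σ 0)
  rw [hσ, h1, mul_one, map_inv₀] at h3
  have h4 : algebraMap ℂ E (c 0) * t (σ 0) = algebraMap ℂ E (c (σ 0)) * G (t (σ 0)) := by
    field_simp at h3
    linear_combination h3
  intro j
  have h5 := h2 (σ j)
  rw [hσ, map_mul, map_inv₀] at h5
  have h6 : G (t j) * (algebraMap ℂ E (c 0) * t (σ 0)) =
      algebraMap ℂ E (c (σ j)) * (t j * G (t (σ 0))) := by
    field_simp at h5
    linear_combination h5
  change G (t j) * (algebraMap ℂ E (c (σ 0)) * t 0) = algebraMap ℂ E (c (σ j)) * t j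
  rw [h1, mul_one]
  apply mul_right_cancel₀ hg
  rw [h4] at h6
  linear_combination h6

theorem acts_inv (h1 : t 0 = 1) {c c' : Fin 7 → ℂ} (hc : ∀ j, c j * c' j = 1)
    {G : E ≃ₐ[ℂ] E} (hG : Acts t c id G) : Acts t c' id G⁻¹ := by
  intro j
  have h2 := hG j
  change G (t j) * (algebraMap ℂ E (c 0) * t 0) = algebraMap ℂ E (c j) * t j at h2
  rw [h1, mul_one] at h2
  change G.symm (t j) * (algebraMap ℂ E (c' 0) * t 0) = algebraMap ℂ E (c' j) * t j
  rw [h1, mul_one]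
  have h3 := congrArg G.symm h2
  rw [map_mul, map_mul, AlgEquiv.symm_apply_apply, AlgEquiv.commutes, AlgEquiv.commutes] at h3
  have h4 : algebraMap ℂ E (c 0) * algebraMap ℂ E (c' 0) = 1 := by
    rw [← map_mul, hc, map_one]
  have h5 : algebraMap ℂ E (c j) * algebraMap ℂ E (c' j) = 1 := by
    rw [← map_mul, hc, map_one]
  linear_combination -(algebraMap ℂ E (c' 0) * algebraMap ℂ E (c' j)) * h3 +
    t j * algebraMap ℂ E (c' j) * h4 - G.symm (t j) * algebraMap ℂ E (c' 0) * h5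

theorem acts_mul (h1 : t 0 = 1) {c d : Fin 7 → ℂ} {G H : E ≃ₐ[ℂ] E} (hG : Acts t c id G)
    (hH : Acts t d id H) : Acts t (fun j => c j * d j) id (G * H) := by
  intro j
  have h2 := hG j
  have h3 := hH j
  change G (t j) * (algebraMap ℂ E (c 0) * t 0) = algebraMap ℂ E (c j) * t j at h2
  change H (t j) * (algebraMap ℂ E (d 0) * t 0) = algebraMap ℂ E (d j) * t j at h3
  rw [h1, mul_one] at h2 h3
  change G (H (t j)) * (algebraMap ℂ E (c 0 * d 0) * t 0) = algebraMap ℂ E (c j * d j) * t j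
  rw [h1, mul_one, map_mul, map_mul]
  have h4 := congrArg G h3
  rw [map_mul, map_mul, AlgEquiv.commutes, AlgEquiv.commutes] at h4
  linear_combination algebraMap ℂ E (c 0) * h4 + algebraMap ℂ E (d j) * h2

theorem BlochSub.mono {H₁ H₂ : Subgroup (E ≃ₐ[ℂ] E)} (h : H₁ ≤ H₂) (hB : BlochSub H₁) :
    BlochSub H₂ := fun L _ _ ι =>
  hB L ((IntermediateField.inclusion (IntermediateField.fixedField_antitone h)).comp ι)

end

end Vale.Agent.P297.C8V
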