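import Vale.Agent.P297.H600.V3.Link42

/-!
The group `ℤ/4 × ℤ/2`: the rank of the quadric in the first four coordinates.
-/

set_option linter.unusedSimpArgs false

open MvPolynomial

namespace Vale.Agent.P297.C8V

variable {u : Fin 4 → Fin 5 → ℂ} {F : Fin 4 → MvPolynomial (Fin 7) ℂ}

theorem Iso.finz (h : Iso F) (i j : Fin 7) :
    {c : ℂ | ∃ (z : Fin 7 → ℂ) (l : Fin 4 → ℂ), (∀ i, eval z (F i) = 0) ∧ l ≠ 0 ∧
      (∀ j, ∑ i, l i * eval z (pderiv j (F i)) = 0) ∧ z j ≠ 0 ∧ z i = c * z j}.Finite := by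
  obtain ⟨Z, hZ⟩ := h
  refine (Z.finite_toSet.image fun w => w.1 i / w.1 j).subset ?_
  rintro c ⟨z, l, h1, h3, h4, h5, h6⟩
  have h2 : z ≠ 0 := by
    rintro rfl
    exact h5 rfl
  obtain ⟨w, hw, a, b, hz, -⟩ := hZ z l h1 h2 h3 h4
  refine ⟨w, hw, ?_⟩
  rw [hz] at h5 h6
  simp only [Pi.smul_apply, smul_eq_mul] at h5 h6
  obtain ⟨ha, hj⟩ := mul_ne_zero_iff.1 h5
  change w.1 i / w.1 j = c
  rw [div_eq_iff hj]
  apply mul_left_cancel₀ ha
  rw [h6]
  ring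

/-- Singular points. -/
theorem Form42.sing (h : Form42 u F) (h1 : eu u 1 ≠ 0) (h2 : eu u 2 ≠ 0)
    (h4 : u 2 4 ≠ 0 ∨ u 3 4 ≠ 0) (x : Fin 4 → ℂ)
    (hx : ∀ i : Fin 4, du u i.castSucc * x i = 0) :
    ∃ z : Fin 7 → ℂ, (∀ i : Fin 4, z (![0, 1, 2, 3] i) = x i) ∧ (∀ k, eval z (F k) = 0) ∧
      ∀ j, ∑ i, (![0, 0, u 3 4, -u 2 4] : Fin 4 → ℂ) i * eval z (pderiv j (F i)) = 0 := by
  have e0 : du u 0 * x 0 = 0 := hx 0
  have e1 : du u 1 * x 1 = 0 := hx 1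
  have e2 : du u 2 * x 2 = 0 := hx 2
  have e3 : du u 3 * x 3 = 0 := hx 3
  obtain ⟨a, b, c, hz⟩ := h.exists_pt h1 h2 h4 (x₀ := x 0) (x₁ := x 1) (x₂ := x 2) (x₃ := x 3)
    (by linear_combination x 0 * e0 + x 1 * e1 + x 2 * e2 + x 3 * e3)
  refine ⟨![x 0, x 1, x 2, x 3, a, b, c], ?_, hz, ?_⟩
  · intro i
    fin_cases i <;> rfl
  · intro j
    rw [Fin.sum_univ_four]
    change 0 * _ + 0 * _ + u 3 4 * _ + (-u 2 4) * _ = 0
    rw [h.f2, h.f3]
    unfold du at e0 e1 e2 e3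
    fin_cases j
    · simp [pderiv_X, pderiv_C_mul, Derivation.leibniz]
      linear_combination 2 * e0
    · simp [pderiv_X, pderiv_C_mul, Derivation.leibniz]
      linear_combination 2 * e1
    · simp [pderiv_X, pderiv_C_mul, Derivation.leibniz]
      linear_combination 2 * e2
    · simp [pderiv_X, pderiv_C_mul, Derivation.leibniz]
      linear_combination 2 * e3
    · simp [pderiv_X, pderiv_C_mul, Derivation.leibniz]
      ring
    · simp [pderiv_X, pderiv_C_mul, Derivation.leibniz]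
      ring
    · simp [pderiv_X, pderiv_C_mul, Derivation.leibniz]

/-- The rank is at least three. -/
theorem Form42.rank (h : Form42 u F) (hi : Iso F) (h1 : eu u 1 ≠ 0) (h2 : eu u 2 ≠ 0)
    (h4 : u 2 4 ≠ 0 ∨ u 3 4 ≠ 0) {k l : Fin 4} (hkl : k ≠ l) (hk : du u k.castSucc = 0)
    (hl : du u l.castSucc = 0) : False := by
  apply Set.infinite_univ (α := ℂ)
  refine (hi.finz (![0, 1, 2, 3] k) (![0, 1, 2, 3] l)).subset ?_
  intro c _
  obtain ⟨z, z1, z2, z3⟩ := h.sing h1 h2 h4 (Pi.single k c + Pi.single l 1) (by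
    intro i
    by_cases h5 : i = k
    · rw [h5, hk, zero_mul]
    · by_cases h6 : i = l
      · rw [h6, hl, zero_mul]
      · rw [Pi.add_apply, Pi.single_eq_of_ne h5, Pi.single_eq_of_ne h6, add_zero, mul_zero])
  refine ⟨z, _, z2, ?_, z3, ?_, ?_⟩
  · intro h5
    rcases h4 with h6 | h6
    · exact h6 (neg_eq_zero.1 (congrFun h5 3))
    · exact h6 (congrFun h5 2)
  · rw [z1, Pi.add_apply, Pi.single_eq_of_ne hkl.symm, Pi.single_eq_same, zero_add]
    exact one_ne_zero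
  · rw [z1, z1, Pi.add_apply, Pi.add_apply, Pi.single_eq_of_ne hkl.symm, Pi.single_eq_same,
      Pi.single_eq_same, Pi.single_eq_of_ne hkl, zero_add, add_zero, mul_one]

end Vale.Agent.P297.C8V
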