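import Vale.Agent.P297.H600.V3.Main42
import Vale.Agent.P297.H600.V3.Rank42
import Vale.Agent.P297.H600.V3.Perm42

/-!
The group `ℤ/4 × ℤ/2` for semi-invariant quadrics.
-/

open MvPolynomial

namespace Vale.Agent.P297.C8V

section

variable {E : Type} [Field E] [Algebra ℂ E] {t : Fin 7 → E}
  {F : Fin 4 → MvPolynomial (Fin 7) ℂ}

theorem Form42.hom {u : Fin 4 → Fin 5 → ℂ} (h : Form42 u F) (k : Fin 4) :
    (F k).IsHomogeneous 2 := by
  have key : ∀ (c : ℂ) (i j : Fin 7),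
      (C c * (X i * X j) : MvPolynomial (Fin 7) ℂ).IsHomogeneous 2 := by
    intro c i j
    have := (isHomogeneous_C (Fin 7) c).mul ((isHomogeneous_X ℂ i).mul (isHomogeneous_X ℂ j))
    rwa [show 0 + (1 + 1) = 2 from rfl] at this
  fin_cases k
  · refine h.f0 ▸ ?_
    exact ((((key _ _ _).add (key _ _ _)).add (key _ _ _)).add (key _ _ _)).add (key _ _ _)
  · refine h.f1 ▸ ?_
    exact ((((key _ _ _).add (key _ _ _)).add (key _ _ _)).add (key _ _ _)).add (key _ _ _)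
  · refine h.f2 ▸ ?_
    exact ((((key _ _ _).add (key _ _ _)).add (key _ _ _)).add (key _ _ _)).add (key _ _ _)
  · refine h.f3 ▸ ?_
    exact ((((key _ _ _).add (key _ _ _)).add (key _ _ _)).add (key _ _ _)).add (key _ _ _)

/-- The first relabelling. -/
theorem form_iota {u : Fin 4 → Fin 5 → ℂ} (h : Form42 u F) :
    Form42 ![u 0, u 1, ![u 2 1, u 2 0, u 2 3, u 2 2, u 2 4], ![u 3 1, u 3 0, u 3 3, u 3 2, u 3 4]]
      (permF ![1, 0, 3, 2, 4, 5, 6] F) where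
  f0 := by
    change rename _ (F 0) = C (u 0 0) * (X 6 * X 6) + C (u 0 1) * (X 4 * X 4) +
      C (u 0 2) * (X 5 * X 5) + C (u 0 3) * (X 0 * X 1) + C (u 0 4) * (X 2 * X 3)
    rw [h.f0]
    simp only [map_add, map_mul, rename_C, rename_X]
    change C (u 0 0) * (X 6 * X 6) + C (u 0 1) * (X 4 * X 4) +
      C (u 0 2) * (X 5 * X 5) + C (u 0 3) * (X 1 * X 0) + C (u 0 4) * (X 3 * X 2) = _
    ring
  f1 := by
    change rename _ (F 1) = C (u 1 0) * (X 6 * X 6) + C (u 1 1) * (X 4 * X 4) +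
      C (u 1 2) * (X 5 * X 5) + C (u 1 3) * (X 0 * X 1) + C (u 1 4) * (X 2 * X 3)
    rw [h.f1]
    simp only [map_add, map_mul, rename_C, rename_X]
    change C (u 1 0) * (X 6 * X 6) + C (u 1 1) * (X 4 * X 4) +
      C (u 1 2) * (X 5 * X 5) + C (u 1 3) * (X 1 * X 0) + C (u 1 4) * (X 3 * X 2) = _
    ring
  f2 := by
    change rename _ (F 2) = C (u 2 1) * (X 0 * X 0) + C (u 2 0) * (X 1 * X 1) +
      C (u 2 3) * (X 2 * X 2) + C (u 2 2) * (X 3 * X 3) + C (u 2 4) * (X 4 * X 5)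
    rw [h.f2]
    simp only [map_add, map_mul, rename_C, rename_X]
    change C (u 2 0) * (X 1 * X 1) + C (u 2 1) * (X 0 * X 0) + C (u 2 2) * (X 3 * X 3) +
      C (u 2 3) * (X 2 * X 2) + C (u 2 4) * (X 4 * X 5) = _
    ring
  f3 := by
    change rename _ (F 3) = C (u 3 1) * (X 0 * X 0) + C (u 3 0) * (X 1 * X 1) +
      C (u 3 3) * (X 2 * X 2) + C (u 3 2) * (X 3 * X 3) + C (u 3 4) * (X 4 * X 5)
    rw [h.f3]
    simp only [map_add, map_mul, rename_C, rename_X]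
    change C (u 3 0) * (X 1 * X 1) + C (u 3 1) * (X 0 * X 0) + C (u 3 2) * (X 3 * X 3) +
      C (u 3 3) * (X 2 * X 2) + C (u 3 4) * (X 4 * X 5) = _
    ring

/-- The second relabelling. -/
theorem form_tau {u : Fin 4 → Fin 5 → ℂ} (h : Form42 u F) :
    Form42 ![![u 0 0, u 0 1, u 0 2, u 0 4, u 0 3], ![u 1 0, u 1 1, u 1 2, u 1 4, u 1 3],
      ![u 2 2, u 2 3, u 2 0, u 2 1, u 2 4], ![u 3 2, u 3 3, u 3 0, u 3 1, u 3 4]]
      (permF ![2, 3, 0, 1, 4, 5, 6] F) where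
  f0 := by
    change rename _ (F 0) = C (u 0 0) * (X 6 * X 6) + C (u 0 1) * (X 4 * X 4) +
      C (u 0 2) * (X 5 * X 5) + C (u 0 4) * (X 0 * X 1) + C (u 0 3) * (X 2 * X 3)
    rw [h.f0]
    simp only [map_add, map_mul, rename_C, rename_X]
    change C (u 0 0) * (X 6 * X 6) + C (u 0 1) * (X 4 * X 4) +
      C (u 0 2) * (X 5 * X 5) + C (u 0 3) * (X 2 * X 3) + C (u 0 4) * (X 0 * X 1) = _
    ring
  f1 := by
    change rename _ (F 1) = C (u 1 0) * (X 6 * X 6) + C (u 1 1) * (X 4 * X 4) +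
      C (u 1 2) * (X 5 * X 5) + C (u 1 4) * (X 0 * X 1) + C (u 1 3) * (X 2 * X 3)
    rw [h.f1]
    simp only [map_add, map_mul, rename_C, rename_X]
    change C (u 1 0) * (X 6 * X 6) + C (u 1 1) * (X 4 * X 4) +
      C (u 1 2) * (X 5 * X 5) + C (u 1 3) * (X 2 * X 3) + C (u 1 4) * (X 0 * X 1) = _
    ring
  f2 := by
    change rename _ (F 2) = C (u 2 2) * (X 0 * X 0) + C (u 2 3) * (X 1 * X 1) +
      C (u 2 0) * (X 2 * X 2) + C (u 2 1) * (X 3 * X 3) + C (u 2 4) * (X 4 * X 5)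
    rw [h.f2]
    simp only [map_add, map_mul, rename_C, rename_X]
    change C (u 2 0) * (X 2 * X 2) + C (u 2 1) * (X 3 * X 3) + C (u 2 2) * (X 0 * X 0) +
      C (u 2 3) * (X 1 * X 1) + C (u 2 4) * (X 4 * X 5) = _
    ring
  f3 := by
    change rename _ (F 3) = C (u 3 2) * (X 0 * X 0) + C (u 3 3) * (X 1 * X 1) +
      C (u 3 0) * (X 2 * X 2) + C (u 3 1) * (X 3 * X 3) + C (u 3 4) * (X 4 * X 5)
    rw [h.f3]
    simp only [map_add, map_mul, rename_C, rename_X]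
    change C (u 3 0) * (X 2 * X 2) + C (u 3 1) * (X 3 * X 3) + C (u 3 2) * (X 0 * X 0) +
      C (u 3 3) * (X 1 * X 1) + C (u 3 4) * (X 4 * X 5) = _
    ring

/-- The third relabelling. -/
theorem form_sigma {u : Fin 4 → Fin 5 → ℂ} (h : Form42 u F) :
    Form42 ![![u 0 0, u 0 1, u 0 2, u 0 4, u 0 3], ![u 1 0, u 1 1, u 1 2, u 1 4, u 1 3],
      ![u 2 3, u 2 2, u 2 1, u 2 0, u 2 4], ![u 3 3, u 3 2, u 3 1, u 3 0, u 3 4]]
      (permF ![3, 2, 1, 0, 4, 5, 6] F) where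
  f0 := by
    change rename _ (F 0) = C (u 0 0) * (X 6 * X 6) + C (u 0 1) * (X 4 * X 4) +
      C (u 0 2) * (X 5 * X 5) + C (u 0 4) * (X 0 * X 1) + C (u 0 3) * (X 2 * X 3)
    rw [h.f0]
    simp only [map_add, map_mul, rename_C, rename_X]
    change C (u 0 0) * (X 6 * X 6) + C (u 0 1) * (X 4 * X 4) +
      C (u 0 2) * (X 5 * X 5) + C (u 0 3) * (X 3 * X 2) + C (u 0 4) * (X 1 * X 0) = _
    ring
  f1 := by
    change rename _ (F 1) = C (u 1 0) * (X 6 * X 6) + C (u 1 1) * (X 4 * X 4) +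
      C (u 1 2) * (X 5 * X 5) + C (u 1 4) * (X 0 * X 1) + C (u 1 3) * (X 2 * X 3)
    rw [h.f1]
    simp only [map_add, map_mul, rename_C, rename_X]
    change C (u 1 0) * (X 6 * X 6) + C (u 1 1) * (X 4 * X 4) +
      C (u 1 2) * (X 5 * X 5) + C (u 1 3) * (X 3 * X 2) + C (u 1 4) * (X 1 * X 0) = _
    ring
  f2 := by
    change rename _ (F 2) = C (u 2 3) * (X 0 * X 0) + C (u 2 2) * (X 1 * X 1) +
      C (u 2 1) * (X 2 * X 2) + C (u 2 0) * (X 3 * X 3) + C (u 2 4) * (X 4 * X 5)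
    rw [h.f2]
    simp only [map_add, map_mul, rename_C, rename_X]
    change C (u 2 0) * (X 3 * X 3) + C (u 2 1) * (X 2 * X 2) + C (u 2 2) * (X 1 * X 1) +
      C (u 2 3) * (X 0 * X 0) + C (u 2 4) * (X 4 * X 5) = _
    ring
  f3 := by
    change rename _ (F 3) = C (u 3 3) * (X 0 * X 0) + C (u 3 2) * (X 1 * X 1) +
      C (u 3 1) * (X 2 * X 2) + C (u 3 0) * (X 3 * X 3) + C (u 3 4) * (X 4 * X 5)
    rw [h.f3]
    simp only [map_add, map_mul, rename_C, rename_X]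
    change C (u 3 0) * (X 3 * X 3) + C (u 3 1) * (X 2 * X 2) + C (u 3 2) * (X 1 * X 1) +
      C (u 3 3) * (X 0 * X 0) + C (u 3 4) * (X 4 * X 5) = _
    ring

theorem vec7_ext {f g : Fin 7 → ℂ} (h0 : f 0 = g 0) (h1 : f 1 = g 1) (h2 : f 2 = g 2)
    (h3 : f 3 = g 3) (h4 : f 4 = g 4) (h5 : f 5 = g 5) (h6 : f 6 = g 6) : f = g := by
  funext j
  fin_cases j
  · exact h0
  · exact h1
  · exact h2
  · exact h3
  · exact h4
  · exact h5
  · exact h6

theorem inv_c : ∀ j : Fin 7, (![-Complex.I, Complex.I, -Complex.I, Complex.I, 1, -1, -1] :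
    Fin 7 → ℂ) j * (![Complex.I, -Complex.I, Complex.I, -Complex.I, 1, -1, -1] :
    Fin 7 → ℂ) j = 1 := by
  have h : Complex.I * Complex.I = -1 := Complex.I_mul_I
  intro j
  fin_cases j
  · change -Complex.I * Complex.I = 1
    linear_combination -h
  · change Complex.I * -Complex.I = 1
    linear_combination -h
  · change -Complex.I * Complex.I = 1
    linear_combination -h
  · change Complex.I * -Complex.I = 1
    linear_combination -h
  · change (1 : ℂ) * 1 = 1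
    ring
  · change (-1 : ℂ) * -1 = 1
    ring
  · change (-1 : ℂ) * -1 = 1
    ring

/-- the product with the square of the first generator -/
theorem acts_sq_mul (h1 : t 0 = 1) {G₁ G₂ : E ≃ₐ[ℂ] E}
    (hG₁ : Acts t ![Complex.I, -Complex.I, Complex.I, -Complex.I, 1, -1, -1] id G₁)
    (hG₂ : Acts t ![-1, -1, 1, 1, -1, -1, 1] id G₂) :
    Acts t ![1, 1, -1, -1, -1, -1, 1] id (G₁ * G₁ * G₂) := by
  have h2 := acts_mul h1 (acts_mul h1 hG₁ hG₁) hG₂
  have h : Complex.I * Complex.I = -1 := Complex.I_mul_I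
  have h3 : (fun j => (![Complex.I, -Complex.I, Complex.I, -Complex.I, 1, -1, -1] : Fin 7 → ℂ) j *
      (![Complex.I, -Complex.I, Complex.I, -Complex.I, 1, -1, -1] : Fin 7 → ℂ) j *
      (![-1, -1, 1, 1, -1, -1, 1] : Fin 7 → ℂ) j) = ![1, 1, -1, -1, -1, -1, 1] := by
    apply vec7_ext
    · change Complex.I * Complex.I * -1 = 1
      linear_combination -h
    · change -Complex.I * -Complex.I * -1 = 1
      linear_combination -h
    · change Complex.I * Complex.I * 1 = -1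
      linear_combination h
    · change -Complex.I * -Complex.I * 1 = -1
      linear_combination h
    · change (1 : ℂ) * 1 * -1 = -1
      ring
    · change (-1 : ℂ) * -1 * -1 = -1
      ring
    · change (-1 : ℂ) * -1 * 1 = 1
      ring
  rw [h3] at h2
  exact h2

theorem form42_conclusion {u : Fin 4 → Fin 5 → ℂ} (hu : Form42 u F)
    (hf1 : Free ![-1, -1, -1, -1, 1, 1, 1] F) (hf2 : Free ![1, 1, -1, -1, -1, -1, 1] F)
    (hf3 : Free ![-1, -1, 1, 1, -1, -1, 1] F) (hi : Iso F) (ht : IsFF F t) : Concl42 t := by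
  obtain ⟨h1, h2, h4⟩ := hu.ne hf1
  have sq : ∀ s : ℂ, ∃ a : ℂ, a ^ 2 = s := fun s =>
    IsAlgClosed.exists_pow_nat_eq s (n := 2) (by norm_num)
  have rk : ∀ {k l : Fin 4}, k ≠ l → du u k.castSucc = 0 → du u l.castSucc ≠ 0 :=
    fun hkl hk hl => hu.rank hi h1 h2 h4 hkl hk hl
  -- the coordinates do not vanish
  have ne : ∀ (j : Fin 7) (z : Fin 7 → ℂ), (∀ k, eval z (F k) = 0) → z j = 1 → t j ≠ 0 := by
    intro j z hz hj h0
    have h5 := ht.gen 1 (X j) (isHomogeneous_X ℂ j) (by rw [aeval_X]; exact h0) z hz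
    rw [eval_X, hj] at h5
    exact one_ne_zero h5
  by_cases d0 : du u 0 = 0
  · have d1 : du u 1 ≠ 0 := rk (k := 0) (l := 1) (by decide) d0
    have d2 : du u 2 ≠ 0 := rk (k := 0) (l := 2) (by decide) d0
    have d3 : du u 3 ≠ 0 := rk (k := 0) (l := 3) (by decide) d0
    have ht1 : t 1 ≠ 0 := by
      obtain ⟨s, hs⟩ := sq (-du u 1 / du u 2)
      obtain ⟨a, b, c, hz⟩ := hu.exists_pt h1 h2 h4 (x₀ := 0) (x₁ := 1) (x₂ := s) (x₃ := 0) (by
        rw [hs]
        field_simp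
        ring)
      exact ne 1 _ hz rfl
    have hσ : ∀ j : Fin 7, (![1, 0, 3, 2, 4, 5, 6] : Fin 7 → Fin 7)
        ((![1, 0, 3, 2, 4, 5, 6] : Fin 7 → Fin 7) j) = j := by decide
    have g1 := perm_free hσ hf1
    have g2 := perm_free hσ hf2
    have g3 := perm_free hσ hf3
    obtain ⟨G₁, G₂, hG₁, hG₂, hB⟩ := main42 (form_iota hu)
      (by convert g1 using 1; exact vec7_ext rfl rfl rfl rfl rfl rfl rfl)
      (by convert g2 using 1; exact vec7_ext rfl rfl rfl rfl rfl rfl rfl)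
      (by convert g3 using 1; exact vec7_ext rfl rfl rfl rfl rfl rfl rfl)
      (perm_iso hσ hi) (perm_isFF hσ ht hu.hom ht1) d1 d3 d2
    have k1 := perm_acts hσ ht.one ht1 hG₁
    have k2 := perm_acts hσ ht.one ht1 hG₂
    have k1' : Acts t ![-Complex.I, Complex.I, -Complex.I, Complex.I, 1, -1, -1] id G₁ := by
      convert k1 using 1
      exact vec7_ext rfl rfl rfl rfl rfl rfl rfl
    have k2' : Acts t ![1, 1, -1, -1, -1, -1, 1] id G₂ := by
      convert k2 using 1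
      exact vec7_ext rfl rfl rfl rfl rfl rfl rfl
    refine ⟨G₁⁻¹, G₂, acts_inv ht.one inv_c k1', k2', hB.mono ?_⟩
    rw [Subgroup.closure_le]
    rintro g (rfl | rfl)
    · have h5 : g⁻¹ ∈ Subgroup.closure {g⁻¹, G₂} := Subgroup.subset_closure (Or.inl rfl)
      exact (Subgroup.inv_mem_iff _).1 h5
    · exact Subgroup.subset_closure (Or.inr rfl)
  by_cases d3 : du u 3 = 0
  · have d1 : du u 1 ≠ 0 := rk (k := 3) (l := 1) (by decide) d3
    have d2 : du u 2 ≠ 0 := rk (k := 3) (l := 2) (by decide) d3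
    have ht1 : t 2 ≠ 0 := by
      obtain ⟨s, hs⟩ := sq (-du u 2 / du u 0)
      obtain ⟨a, b, c, hz⟩ := hu.exists_pt h1 h2 h4 (x₀ := s) (x₁ := 0) (x₂ := 1) (x₃ := 0) (by
        rw [hs]
        field_simp
        ring)
      exact ne 2 _ hz rfl
    have hσ : ∀ j : Fin 7, (![2, 3, 0, 1, 4, 5, 6] : Fin 7 → Fin 7)
        ((![2, 3, 0, 1, 4, 5, 6] : Fin 7 → Fin 7) j) = j := by decide
    have g1 := perm_free hσ hf1
    have g2 := perm_free hσ hf2
    have g3 := perm_free hσ hf3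
    obtain ⟨G₁, G₂, hG₁, hG₂, hB⟩ := main42 (form_tau hu)
      (by convert g1 using 1; exact vec7_ext rfl rfl rfl rfl rfl rfl rfl)
      (by convert g3 using 1; exact vec7_ext rfl rfl rfl rfl rfl rfl rfl)
      (by convert g2 using 1; exact vec7_ext rfl rfl rfl rfl rfl rfl rfl)
      (perm_iso hσ hi) (perm_isFF hσ ht hu.hom ht1) d2 d0 d1
    have k1 := perm_acts hσ ht.one ht1 hG₁
    have k2 := perm_acts hσ ht.one ht1 hG₂
    have k1' : Acts t ![Complex.I, -Complex.I, Complex.I, -Complex.I, 1, -1, -1] id G₁ := by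
      convert k1 using 1
      exact vec7_ext rfl rfl rfl rfl rfl rfl rfl
    have k2' : Acts t ![-1, -1, 1, 1, -1, -1, 1] id G₂ := by
      convert k2 using 1
      exact vec7_ext rfl rfl rfl rfl rfl rfl rfl
    refine ⟨G₁, G₁ * G₁ * G₂, k1', acts_sq_mul ht.one k1' k2', hB.mono ?_⟩
    rw [Subgroup.closure_le]
    rintro g (rfl | rfl)
    · exact Subgroup.subset_closure (Or.inl rfl)
    · have h5 : G₁ ∈ Subgroup.closure {G₁, G₁ * G₁ * g} := Subgroup.subset_closure (Or.inl rfl)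
      have h6 : G₁ * G₁ * g ∈ Subgroup.closure {G₁, G₁ * G₁ * g} :=
        Subgroup.subset_closure (Or.inr rfl)
      have h7 := mul_mem (inv_mem (mul_mem h5 h5)) h6
      rw [inv_mul_cancel_left] at h7
      exact h7
  by_cases d2 : du u 2 = 0
  · have d1 : du u 1 ≠ 0 := rk (k := 2) (l := 1) (by decide) d2
    have ht1 : t 3 ≠ 0 := by
      obtain ⟨s, hs⟩ := sq (-du u 3 / du u 0)
      obtain ⟨a, b, c, hz⟩ := hu.exists_pt h1 h2 h4 (x₀ := s) (x₁ := 0) (x₂ := 0) (x₃ := 1) (by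
        rw [hs]
        field_simp
        ring)
      exact ne 3 _ hz rfl
    have hσ : ∀ j : Fin 7, (![3, 2, 1, 0, 4, 5, 6] : Fin 7 → Fin 7)
        ((![3, 2, 1, 0, 4, 5, 6] : Fin 7 → Fin 7) j) = j := by decide
    have g1 := perm_free hσ hf1
    have g2 := perm_free hσ hf2
    have g3 := perm_free hσ hf3
    obtain ⟨G₁, G₂, hG₁, hG₂, hB⟩ := main42 (form_sigma hu)
      (by convert g1 using 1; exact vec7_ext rfl rfl rfl rfl rfl rfl rfl)
      (by convert g3 using 1; exact vec7_ext rfl rfl rfl rfl rfl rfl rfl)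
      (by convert g2 using 1; exact vec7_ext rfl rfl rfl rfl rfl rfl rfl)
      (perm_iso hσ hi) (perm_isFF hσ ht hu.hom ht1) d3 d1 d0
    have k1 := perm_acts hσ ht.one ht1 hG₁
    have k2 := perm_acts hσ ht.one ht1 hG₂
    have k1' : Acts t ![-Complex.I, Complex.I, -Complex.I, Complex.I, 1, -1, -1] id G₁ := by
      convert k1 using 1
      exact vec7_ext rfl rfl rfl rfl rfl rfl rfl
    have k2' : Acts t ![-1, -1, 1, 1, -1, -1, 1] id G₂ := by
      convert k2 using 1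
      exact vec7_ext rfl rfl rfl rfl rfl rfl rfl
    have k3 := acts_inv ht.one inv_c k1'
    refine ⟨G₁⁻¹, G₁⁻¹ * G₁⁻¹ * G₂, k3, acts_sq_mul ht.one k3 k2', hB.mono ?_⟩
    rw [Subgroup.closure_le]
    have h5 : G₁⁻¹ ∈ Subgroup.closure {G₁⁻¹, G₁⁻¹ * G₁⁻¹ * G₂} :=
      Subgroup.subset_closure (Or.inl rfl)
    have h6 : G₁⁻¹ * G₁⁻¹ * G₂ ∈ Subgroup.closure {G₁⁻¹, G₁⁻¹ * G₁⁻¹ * G₂} :=
      Subgroup.subset_closure (Or.inr rfl)
    rintro g (rfl | rfl)
    · exact (Subgroup.inv_mem_iff _).1 h5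
    · have h7 := mul_mem (inv_mem (mul_mem h5 h5)) h6
      rw [inv_mul_cancel_left] at h7
      exact h7
  · exact main42 hu hf1 hf2 hf3 hi ht d0 d2 d3

/-- **The group `ℤ/4 × ℤ/2`.** -/
theorem bloch_Z42
    (h1 : Semi ![Complex.I, -Complex.I, Complex.I, -Complex.I, 1, -1, -1] id ![1, 1, -1, -1] F)
    (h2 : Semi ![1, 1, -1, -1, -1, -1, 1] id ![1, 1, 1, 1] F)
    (hf1 : Free ![-1, -1, -1, -1, 1, 1, 1] F) (hf2 : Free ![1, 1, -1, -1, -1, -1, 1] F)
    (hf3 : Free ![-1, -1, 1, 1, -1, -1, 1] F) (hi : Iso F) (ht : IsFF F t) :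
    ∃ G₁ G₂ : E ≃ₐ[ℂ] E,
      Acts t ![Complex.I, -Complex.I, Complex.I, -Complex.I, 1, -1, -1] id G₁ ∧
      Acts t ![1, 1, -1, -1, -1, -1, 1] id G₂ ∧ BlochSub (Subgroup.closure {G₁, G₂}) := by
  obtain ⟨u, hu⟩ := exists_form42 h1 h2
  exact form42_conclusion hu hf1 hf2 hf3 hi ht

end

end Vale.Agent.P297.C8V
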